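import Vale.Agent.P011.H605.Odd.Dd

/-!
# The relative determinant in germ form

`D` a topological division ring, `I` an open (non unital) subring with `1 + I` a group, `Ψ` a
homomorphism on `1 + I`.

* `rd_of_hom`: `Rd (ℤ + I) I Ψ` holds without any invariance hypothesis;
* `ps_corner`: if `Ψ` is germ-invariant under every `g ∈ D^×`, then for fixed rectangular `A`, `B`
  with `B A = 1` the pivot sums of `1 + A (S - 1) B` and of `S` agree for `S` near `1`;
* `ps_germ_conj`, `ps_germ_eq`, `transfer`.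
-/

open Matrix Filter Topology

namespace Vale.Agent.P011.H605.Odd

variable {D E : Type*} [DivisionRing D] [AddCommGroup E]

/-! ### the ring `ℤ + I` -/

/-- the subring `ℤ + I` -/
def zI (I : AddSubgroup D) (hm : ∀ x ∈ I, ∀ y ∈ I, x * y ∈ I) : Subring D where
  carrier := {d | ∃ n : ℤ, d - n ∈ I}
  mul_mem' := by
    rintro a b ⟨n, hn⟩ ⟨k, hk⟩
    refine ⟨n * k, ?_⟩
    have e : a * b - ((n * k : ℤ) : D) = (a - n) * (b - k) + (n • (b - (k : D)) + k • (a - (n : D))) := by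
      rw [zsmul_eq_mul, zsmul_eq_mul, Int.cast_mul]
      have : (k : D) * (a - n) = (a - n) * k := (Int.cast_commute k (a - n)).eq
      rw [this]
      noncomm_ring
    rw [e]
    exact I.add_mem (hm _ hn _ hk) (I.add_mem (I.zsmul_mem hk n) (I.zsmul_mem hn k))
  one_mem' := ⟨1, by simp [I.zero_mem]⟩
  add_mem' := by
    rintro a b ⟨n, hn⟩ ⟨k, hk⟩
    refine ⟨n + k, ?_⟩
    have e : a + b - ((n + k : ℤ) : D) = (a - n) + (b - k) := by push_cast; abel
    rw [e]; exact I.add_mem hn hk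
  zero_mem' := ⟨0, by simp [I.zero_mem]⟩
  neg_mem' := by
    rintro a ⟨n, hn⟩
    refine ⟨-n, ?_⟩
    have e : -a - ((-n : ℤ) : D) = -(a - n) := by push_cast; abel
    rw [e]; exact I.neg_mem hn

/-- **no invariance is needed**: a homomorphism on `1 + I` satisfies `Ψ (1 + x y) = Ψ (1 + y x)` for
`x ∈ I`, `y ∈ ℤ + I` -/
theorem rd_of_hom (I : AddSubgroup D) (hm : ∀ x ∈ I, ∀ y ∈ I, x * y ∈ I) (Ψ : D → E)
    (ne : ∀ x ∈ I, 1 + x ≠ 0) (inv : ∀ x ∈ I, (1 + x)⁻¹ - 1 ∈ I)
    (add : ∀ x ∈ I, ∀ y ∈ I, Ψ ((1 + x) * (1 + y)) = Ψ (1 + x) + Ψ (1 + y)) :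
    Rd (zI I hm) I Ψ := by
  have hmz : ∀ a ∈ zI I hm, ∀ x ∈ I, a * x ∈ I := by
    rintro a ⟨n, hn⟩ x hx
    have e : a * x = (a - n) * x + n • x := by rw [zsmul_eq_mul]; noncomm_ring
    rw [e]; exact I.add_mem (hm _ hn _ hx) (I.zsmul_mem hx n)
  have hmz' : ∀ x ∈ I, ∀ a ∈ zI I hm, x * a ∈ I := by
    rintro x hx a ⟨n, hn⟩
    have e : x * a = x * (a - n) + n • x := by
      rw [zsmul_eq_mul, (Int.cast_commute n x).eq]; noncomm_ring
    rw [e]; exact I.add_mem (hm _ hx _ hn) (I.zsmul_mem hx n)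
  have add' : ∀ {u v : D}, u - 1 ∈ I → v - 1 ∈ I → Ψ (u * v) = Ψ u + Ψ v := by
    intro u v hu hv
    have := add _ hu _ hv
    simpa using this
  have inv' : ∀ {u : D}, u - 1 ∈ I → u⁻¹ - 1 ∈ I := by
    intro u hu
    have := inv _ hu
    simpa using this
  have ne' : ∀ {u : D}, u - 1 ∈ I → u ≠ 0 := by
    intro u hu
    have := ne _ hu
    simpa using this
  have psi1 : Ψ 1 = 0 := by
    have := add 0 I.zero_mem 0 I.zero_mem
    simpa using this
  have mulI : ∀ {u v : D}, u - 1 ∈ I → v - 1 ∈ I → u * v - 1 ∈ I := by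
    intro u v hu hv
    have h1 := I.add_mem (I.add_mem hu hv) (hm _ hu _ hv)
    have : u * v - 1 = (u - 1) + (v - 1) + (u - 1) * (v - 1) := by noncomm_ring
    rw [this]; exact h1
  -- (A)
  have hA : ∀ h : D, h - 1 ∈ I → ∀ x ∈ I, Ψ (1 + h * x) = Ψ (1 + x * h) := by
    intro h hh x hx
    have h1 : (h⁻¹ - 1 ∈ I) := inv' hh
    have hO : h ∈ zI I hm := ⟨1, by simpa using hh⟩
    have h2 : (1 + h * x) - 1 ∈ I := by simpa using hmz _ hO _ hx
    have e : 1 + x * h = h⁻¹ * (1 + h * x) * h := by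
      have h3 := ne' hh
      have : h⁻¹ * (1 + h * x) * h = h⁻¹ * h + h⁻¹ * h * x * h := by noncomm_ring
      rw [this, inv_mul_cancel₀ h3, one_mul]
    rw [e, add' (mulI h1 h2) hh, add' h1 h2]
    have h4 := add' h1 hh
    rw [inv_mul_cancel₀ (ne' hh), psi1] at h4
    calc Ψ (1 + h * x) = Ψ (1 + h * x) + (Ψ h⁻¹ + Ψ h) := by rw [← h4, add_zero]
      _ = _ := by abel
  -- (B)
  have hB : ∀ y ∈ zI I hm, ∀ x ∈ I, Ψ (1 + (y + 1) * x) - Ψ (1 + x * (y + 1))
      = Ψ (1 + y * x) - Ψ (1 + x * y) := by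
    intro y hy x hx
    have a1 : (1 + y * x) - 1 ∈ I := by simpa using hmz _ hy _ hx
    have a2 : (1 + x * y) - 1 ∈ I := by simpa using hmz' _ hx _ hy
    have b1 := inv' a1
    have b2 := inv' a2
    have n1 := ne' a1
    have n2 := ne' a2
    have e1 : 1 + (y + 1) * x = (1 + y * x) * (1 + (1 + y * x)⁻¹ * x) := by
      rw [mul_add, mul_one, mul_inv_cancel_left₀ n1]; noncomm_ring
    have e2 : 1 + x * (y + 1) = (1 + x * (1 + x * y)⁻¹) * (1 + x * y) := by
      have : (1 + x * (1 + x * y)⁻¹) * (1 + x * y)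
          = (1 + x * y) + x * ((1 + x * y)⁻¹ * (1 + x * y)) := by noncomm_ring
      rw [this, inv_mul_cancel₀ n2]; noncomm_ring
    have e3 : x * (1 + y * x)⁻¹ = (1 + x * y)⁻¹ * x := by
      rw [eq_inv_mul_iff_mul_eq₀ n2]
      have : (1 + x * y) * (x * (1 + y * x)⁻¹) = x * ((1 + y * x) * (1 + y * x)⁻¹) := by
        noncomm_ring
      rw [this, mul_inv_cancel₀ n1, mul_one]
    have o1 : (1 + y * x)⁻¹ ∈ zI I hm := ⟨1, by simpa using b1⟩
    have o2 : (1 + x * y)⁻¹ ∈ zI I hm := ⟨1, by simpa using b2⟩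
    have c1 : (1 + (1 + y * x)⁻¹ * x) - 1 ∈ I := by simpa using hmz _ o1 _ hx
    have c2 : (1 + x * (1 + x * y)⁻¹) - 1 ∈ I := by simpa using hmz' _ hx _ o2
    have f1 : Ψ (1 + (1 + y * x)⁻¹ * x) = Ψ (1 + x * (1 + x * y)⁻¹) := by
      rw [hA _ b1 _ hx, e3, hA _ b2 _ hx]
    rw [e1, e2, add' a1 c1, add' c2 a2, f1]
    abel
  -- all of `ℤ + I`
  have hO1 : (1 : D) ∈ zI I hm := (zI I hm).one_mem
  have hC : ∀ n : ℤ, ∀ y ∈ I, ∀ x ∈ I, Ψ (1 + ((n : D) + y) * x) = Ψ (1 + x * ((n : D) + y)) := by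
    intro n y hy
    have hz : ∀ n : ℤ, (n : D) + y ∈ zI I hm := fun n => ⟨n, by simpa using hy⟩
    have hstep : ∀ n : ℤ, ∀ x ∈ I, Ψ (1 + (((n + 1 : ℤ) : D) + y) * x)
        - Ψ (1 + x * (((n + 1 : ℤ) : D) + y)) = Ψ (1 + ((n : D) + y) * x) - Ψ (1 + x * ((n : D) + y)) := by
      intro n x hx
      have := hB _ (hz n) x hx
      rw [show ((n + 1 : ℤ) : D) + y = (n : D) + y + 1 by push_cast; abel]
      exact this
    have h0 : ∀ x ∈ I, Ψ (1 + (((0 : ℤ) : D) + y) * x) = Ψ (1 + x * (((0 : ℤ) : D) + y)) := by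
      intro x hx
      have h1 := hstep 0 x hx
      have h2 : Ψ (1 + (((0 + 1 : ℤ) : D) + y) * x) = Ψ (1 + x * (((0 + 1 : ℤ) : D) + y)) :=
        hA _ (by simpa using hy) x hx
      rw [h2, sub_self] at h1
      exact (sub_eq_zero.mp h1.symm)
    induction n using Int.induction_on with
    | zero => exact h0
    | succ k ih =>
      intro x hx
      have h1 := hstep k x hx
      rw [ih x hx, sub_self] at h1
      exact sub_eq_zero.mp h1
    | pred k ih =>
      intro x hx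
      have h1 := hstep (-(k : ℤ) - 1) x hx
      rw [show (-(k : ℤ) - 1 + 1 : ℤ) = -(k : ℤ) by ring, ih x hx, sub_self] at h1
      exact sub_eq_zero.mp h1.symm
  refine ⟨fun x hx => ⟨0, by simpa using hx⟩, hmz, hmz', ne, inv, add, ?_⟩
  rintro x hx y ⟨n, hn⟩
  have := hC n _ hn x hx
  rw [add_sub_cancel] at this
  exact this.symm


/-! ### rank one elements, one side fixed -/

section alg

/-- the Schur complement of a rank one perturbation (unit on the column side) -/
theorem sch_rank1 {m : ℕ} (c b : Fin (m + 1) → D) (hx1 : (1 : D) + c 0 * b 0 ≠ 0) :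
    sch (1 + vecMulVec c b) = 1 + vecMulVec (fun i : Fin m => c i.succ * (1 + b 0 * c 0)⁻¹)
      (fun j : Fin m => b j.succ) := by
  have key : 1 - b 0 * (1 + c 0 * b 0)⁻¹ * c 0 = (1 + b 0 * c 0)⁻¹ := by
    apply eq_inv_of_mul_eq_one_left
    have e1 : (1 + c 0 * b 0)⁻¹ * (c 0 * (1 + b 0 * c 0)) = c 0 := by
      rw [show c 0 * (1 + b 0 * c 0) = (1 + c 0 * b 0) * c 0 by noncomm_ring,
        inv_mul_cancel_left₀ hx1]
    calc (1 - b 0 * (1 + c 0 * b 0)⁻¹ * c 0) * (1 + b 0 * c 0)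
        = 1 + b 0 * c 0 - b 0 * ((1 + c 0 * b 0)⁻¹ * (c 0 * (1 + b 0 * c 0))) := by
          noncomm_ring
      _ = 1 := by rw [e1]; abel
  ext i j
  have e0 : (1 + vecMulVec c b) i.succ j.succ = (1 : Matrix (Fin m) (Fin m) D) i j
      + c i.succ * b j.succ := by
    rw [Matrix.add_apply, vecMulVec_apply]
    congr 1
    by_cases hij : i = j
    · subst hij; simp
    · rw [Matrix.one_apply_ne hij,
        Matrix.one_apply_ne (fun e => hij (Fin.succ_injective _ e))]
  have e1 : (1 + vecMulVec c b) i.succ 0 = c i.succ * b 0 := by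
    rw [Matrix.add_apply, vecMulVec_apply, Matrix.one_apply_ne (Fin.succ_ne_zero i), zero_add]
  have e2 : (1 + vecMulVec c b) 0 j.succ = c 0 * b j.succ := by
    rw [Matrix.add_apply, vecMulVec_apply, Matrix.one_apply_ne (Fin.succ_ne_zero j).symm,
      zero_add]
  have e3 : (1 + vecMulVec c b) 0 0 = 1 + c 0 * b 0 := by
    rw [Matrix.add_apply, vecMulVec_apply, Matrix.one_apply_eq]
  simp only [sch]
  rw [e0, e1, e2, e3, Matrix.add_apply, vecMulVec_apply, ← key]
  noncomm_ring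

theorem vecMulVec_unit {m : ℕ} (c b : Fin m → D) (u : D) :
    vecMulVec (fun i => c i * u) b = vecMulVec c (fun j => u * b j) := by
  ext i j
  rw [vecMulVec_apply, vecMulVec_apply, mul_assoc]

theorem dot_rank1 {m : ℕ} (c b : Fin (m + 1) → D) (hy1 : (1 : D) + b 0 * c 0 ≠ 0) :
    (1 + (fun j : Fin m => b j.succ) ⬝ᵥ (fun i : Fin m => c i.succ * (1 + b 0 * c 0)⁻¹))
      * (1 + b 0 * c 0) = 1 + b ⬝ᵥ c := by
  have e5 : (fun j : Fin m => b j.succ) ⬝ᵥ (fun i : Fin m => c i.succ * (1 + b 0 * c 0)⁻¹)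
      * (1 + b 0 * c 0) = ∑ i : Fin m, b i.succ * c i.succ := by
    simp only [dotProduct, Finset.sum_mul]
    refine Finset.sum_congr rfl fun i _ => ?_
    rw [mul_assoc, mul_assoc, inv_mul_cancel₀ hy1, mul_one]
  rw [add_mul, one_mul, e5]
  simp only [dotProduct, Fin.sum_univ_succ]
  abel

theorem dot_rank1' {m : ℕ} (c b : Fin (m + 1) → D) (hy1 : (1 : D) + b 0 * c 0 ≠ 0) :
    (1 + b 0 * c 0) * (1 + (fun j : Fin m => (1 + b 0 * c 0)⁻¹ * b j.succ) ⬝ᵥ
      (fun i : Fin m => c i.succ)) = 1 + b ⬝ᵥ c := by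
  have e5 : (1 + b 0 * c 0) * ((fun j : Fin m => (1 + b 0 * c 0)⁻¹ * b j.succ) ⬝ᵥ
      (fun i : Fin m => c i.succ)) = ∑ i : Fin m, b i.succ * c i.succ := by
    simp only [dotProduct, Finset.mul_sum]
    refine Finset.sum_congr rfl fun i _ => ?_
    rw [← mul_assoc, mul_inv_cancel_left₀ hy1]
  rw [mul_add, mul_one, e5]
  simp only [dotProduct, Fin.sum_univ_succ]
  abel

end alg

section germ

variable [TopologicalSpace D] [IsTopologicalRing D] [ContinuousInv₀ D]
variable {O : Subring D} {I : AddSubgroup D} {Ψ : D → E}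

omit [IsTopologicalRing D] [ContinuousInv₀ D] in
theorem ev_mem (hI : IsOpen (I : Set D)) {α : Type*} {l : Filter α} {f : α → D}
    (hf : Tendsto f l (𝓝 0)) : ∀ᶠ x in l, f x ∈ I :=
  hf.eventually (hI.mem_nhds I.zero_mem)

theorem ev_mem_one (hI : IsOpen (I : Set D)) {α : Type*} {l : Filter α} {f : α → D}
    (hf : Tendsto f l (𝓝 1)) : ∀ᶠ x in l, f x - 1 ∈ I := by
  have : Tendsto (fun x => f x - 1) l (𝓝 0) := by simpa using hf.sub_const 1
  exact ev_mem hI this

/-- congruence matrices form a neighbourhood of `1` -/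
theorem ev_cg (hI : IsOpen (I : Set D)) {m : ℕ} {α : Type*} {l : Filter α}
    {f : α → Matrix (Fin m) (Fin m) D} (hf : Tendsto f l (𝓝 1)) : ∀ᶠ x in l, Cg I (f x) := by
  have h1 : ∀ i j, ∀ᶠ x in l, (f x - 1) i j ∈ I := by
    intro i j
    have h2 : Tendsto (fun x => f x i j) l (𝓝 ((1 : Matrix (Fin m) (Fin m) D) i j)) :=
      (tendsto_pi_nhds.mp ((tendsto_pi_nhds.mp hf) i)) j
    have h3 : Tendsto (fun x => (f x - 1) i j) l (𝓝 0) := by
      simpa using h2.sub_const ((1 : Matrix (Fin m) (Fin m) D) i j)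
    exact ev_mem hI h3
  exact Filter.eventually_all.mpr fun i => Filter.eventually_all.mpr fun j => h1 i j

omit [AddCommGroup E] [ContinuousInv₀ D] in
/-- `Ψ (1 + x b) = Ψ (1 + b x)` for fixed `b` and `x` near `0` -/
theorem ev_comm (hinv : ∀ g : D, g ≠ 0 → ∀ᶠ u in 𝓝 (1 : D), Ψ (g * u * g⁻¹) = Ψ u) (b : D)
    {α : Type*} {l : Filter α} {f : α → D} (hf : Tendsto f l (𝓝 0)) :
    ∀ᶠ x in l, Ψ (1 + f x * b) = Ψ (1 + b * f x) := by
  by_cases hb : b = 0
  · subst hb; simp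
  · have h1 : Tendsto (fun x => 1 + f x * b) l (𝓝 1) := by
      simpa using (hf.mul_const b).const_add 1
    filter_upwards [h1.eventually (hinv b hb)] with x hx
    rw [← hx]
    congr 1
    rw [mul_add, add_mul, mul_one, mul_inv_cancel₀ hb, ← mul_assoc, mul_assoc (b * f x),
      mul_inv_cancel₀ hb, mul_one]

/-- rank one perturbations, the row fixed, the column small -/
theorem rank1_col (h : Rd O I Ψ) (hI : IsOpen (I : Set D))
    (hinv : ∀ g : D, g ≠ 0 → ∀ᶠ u in 𝓝 (1 : D), Ψ (g * u * g⁻¹) = Ψ u) :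
    ∀ (m : ℕ) (b : Fin m → D) {α : Type*} {l : Filter α} {c : α → Fin m → D},
    (∀ i, Tendsto (fun x => c x i) l (𝓝 0)) →
    ∀ᶠ x in l, ps Ψ m (1 + vecMulVec (c x) b) = Ψ (1 + b ⬝ᵥ c x)
  | 0, b, _, l, c, _ => by
    refine Filter.Eventually.of_forall fun x => ?_
    simp [ps_zero, dotProduct, h.psi_one]
  | m + 1, b, _, l, c, hc => by
    have t1 : Tendsto (fun x => c x 0 * b 0) l (𝓝 0) := by simpa using (hc 0).mul_const (b 0)
    have t2 : Tendsto (fun x => b 0 * c x 0) l (𝓝 0) := by simpa using (hc 0).const_mul (b 0)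
    have t3 : Tendsto (fun x => (1 + b 0 * c x 0)⁻¹) l (𝓝 1) := by
      have : Tendsto (fun x => 1 + b 0 * c x 0) l (𝓝 1) := by simpa using t2.const_add 1
      simpa using this.inv₀ one_ne_zero
    have t4 : ∀ i : Fin m, Tendsto (fun x => c x i.succ * (1 + b 0 * c x 0)⁻¹) l (𝓝 0) :=
      fun i => by simpa using (hc i.succ).mul t3
    have ih := rank1_col h hI hinv m (fun j => b j.succ) t4
    have t5 : Tendsto (fun x => (fun j : Fin m => b j.succ) ⬝ᵥ
        (fun i : Fin m => c x i.succ * (1 + b 0 * c x 0)⁻¹)) l (𝓝 0) := by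
      simp only [dotProduct]
      have := tendsto_finsetSum (Finset.univ : Finset (Fin m))
        (fun (i : Fin m) _ => (t4 i).const_mul (b i.succ))
      simpa using this
    filter_upwards [ev_mem hI t1, ev_mem hI t2, ih, ev_comm hinv (b 0) (hc 0), ev_mem hI t5] with
      x h1 h2 h3 h4 h5
    rw [ps_succ, sch_rank1 _ _ (h.ne _ h1), h3, Matrix.add_apply, vecMulVec_apply,
      Matrix.one_apply_eq, h4, ← dot_rank1 (c x) b (h.ne _ h2), h.add _ h5 _ h2]
    abel

/-- rank one perturbations, the column fixed, the row small -/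
theorem rank1_row (h : Rd O I Ψ) (hI : IsOpen (I : Set D))
    (hinv : ∀ g : D, g ≠ 0 → ∀ᶠ u in 𝓝 (1 : D), Ψ (g * u * g⁻¹) = Ψ u) :
    ∀ (m : ℕ) (c : Fin m → D) {α : Type*} {l : Filter α} {b : α → Fin m → D},
    (∀ i, Tendsto (fun x => b x i) l (𝓝 0)) →
    ∀ᶠ x in l, ps Ψ m (1 + vecMulVec c (b x)) = Ψ (1 + b x ⬝ᵥ c)
  | 0, c, _, l, b, _ => by
    refine Filter.Eventually.of_forall fun x => ?_
    simp [ps_zero, dotProduct, h.psi_one]
  | m + 1, c, _, l, b, hb => by
    have t1 : Tendsto (fun x => c 0 * b x 0) l (𝓝 0) := by simpa using (hb 0).const_mul (c 0)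
    have t2 : Tendsto (fun x => b x 0 * c 0) l (𝓝 0) := by simpa using (hb 0).mul_const (c 0)
    have t3 : Tendsto (fun x => (1 + b x 0 * c 0)⁻¹) l (𝓝 1) := by
      have : Tendsto (fun x => 1 + b x 0 * c 0) l (𝓝 1) := by simpa using t2.const_add 1
      simpa using this.inv₀ one_ne_zero
    have t4 : ∀ j : Fin m, Tendsto (fun x => (1 + b x 0 * c 0)⁻¹ * b x j.succ) l (𝓝 0) :=
      fun j => by simpa using t3.mul (hb j.succ)
    have ih := rank1_row h hI hinv m (fun i => c i.succ) t4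
    have t5 : Tendsto (fun x => (fun j : Fin m => (1 + b x 0 * c 0)⁻¹ * b x j.succ) ⬝ᵥ
        (fun i : Fin m => c i.succ)) l (𝓝 0) := by
      simp only [dotProduct]
      have := tendsto_finsetSum (Finset.univ : Finset (Fin m))
        (fun (i : Fin m) _ => (t4 i).mul_const (c i.succ))
      simpa using this
    filter_upwards [ev_mem hI t1, ev_mem hI t2, ih, ev_comm hinv (c 0) (hb 0), ev_mem hI t5] with
      x h1 h2 h3 h4 h5
    rw [ps_succ, sch_rank1 _ _ (h.ne _ h1), vecMulVec_unit, h3, Matrix.add_apply,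
      vecMulVec_apply, Matrix.one_apply_eq, ← h4, ← dot_rank1' c (b x) (h.ne _ h2),
      h.add _ h2 _ h5]

omit [TopologicalSpace D] [IsTopologicalRing D] [ContinuousInv₀ D] in
/-- the map `S ↦ 1 + A (S - 1) B` is multiplicative when `B A = 1` -/
theorem corner_mul {m N : ℕ} (A : Matrix (Fin N) (Fin m) D) (B : Matrix (Fin m) (Fin N) D)
    (hBA : B * A = 1) (S T : Matrix (Fin m) (Fin m) D) :
    1 + A * (S * T - 1) * B = (1 + A * (S - 1) * B) * (1 + A * (T - 1) * B) := by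
  have e : (1 + A * (S - 1) * B) * (1 + A * (T - 1) * B)
      = 1 + A * (S - 1) * B + A * (T - 1) * B + A * ((S - 1) * (B * A) * (T - 1)) * B := by
    simp only [Matrix.mul_assoc, Matrix.mul_add, Matrix.add_mul, Matrix.one_mul, Matrix.mul_one,
      Matrix.mul_sub, Matrix.sub_mul]
    abel
  rw [e, hBA, Matrix.mul_one]
  have e2 : S * T - 1 = (S - 1) + (T - 1) + (S - 1) * (T - 1) := by noncomm_ring
  rw [e2, Matrix.mul_add, Matrix.mul_add, Matrix.add_mul, Matrix.add_mul]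
  abel

/-- the corner map, spelled out -/
theorem tendsto_corner {m N : ℕ} (A : Matrix (Fin N) (Fin m) D) (B : Matrix (Fin m) (Fin N) D)
    {α : Type*} {l : Filter α} {S : α → Matrix (Fin m) (Fin m) D} (hS : Tendsto S l (𝓝 1)) :
    Tendsto (fun x => 1 + A * (S x - 1) * B) l (𝓝 1) := by
  have h1 : Tendsto (fun x => S x - 1) l (𝓝 0) := by simpa using hS.sub_const 1
  have hc : Continuous fun T : Matrix (Fin m) (Fin m) D => 1 + A * T * B :=
    continuous_const.add ((continuous_const.matrix_mul continuous_id).matrix_mul continuous_const)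
  have h2 : Tendsto (fun x => 1 + A * (S x - 1) * B) l
      (𝓝 (1 + A * (0 : Matrix (Fin m) (Fin m) D) * B)) :=
    (hc.tendsto 0).comp h1
  simpa using h2

omit [TopologicalSpace D] [IsTopologicalRing D] [ContinuousInv₀ D] in
theorem corner_rank1 {m N : ℕ} (A : Matrix (Fin N) (Fin m) D) (B : Matrix (Fin m) (Fin N) D)
    (c b : Fin m → D) :
    1 + A * ((1 + vecMulVec c b) - 1) * B = 1 + vecMulVec (A *ᵥ c) (b ᵥ* B) := by
  rw [add_sub_cancel_left, Matrix.mul_vecMulVec, Matrix.vecMulVec_mul]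

omit [TopologicalSpace D] [IsTopologicalRing D] [ContinuousInv₀ D] in
theorem corner_emb {m N : ℕ} (A : Matrix (Fin N) (Fin (m + 1)) D)
    (B : Matrix (Fin (m + 1)) (Fin N) D) (T : Matrix (Fin m) (Fin m) D) :
    1 + A * (emb T - 1) * B
      = 1 + (A.submatrix id Fin.succ) * (T - 1) * (B.submatrix Fin.succ id) := by
  congr 1
  have h0 : ∀ j, (emb T - 1) 0 j = 0 := by
    intro j
    refine Fin.cases ?_ (fun j' => ?_) j
    · simp
    · rw [Matrix.sub_apply, emb_zero_succ, Matrix.one_apply_ne (Fin.succ_ne_zero j').symm, sub_zero]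
  have h0' : ∀ i, (emb T - 1) i 0 = 0 := by
    intro i
    refine Fin.cases ?_ (fun i' => ?_) i
    · simp
    · rw [Matrix.sub_apply, emb_succ_zero, Matrix.one_apply_ne (Fin.succ_ne_zero i'), sub_zero]
  have h1 : ∀ i j : Fin m, (emb T - 1) i.succ j.succ = (T - 1) i j := by
    intro i j
    rw [Matrix.sub_apply, Matrix.sub_apply, emb_succ_succ]
    congr 1
    by_cases hij : i = j
    · subst hij; simp
    · rw [Matrix.one_apply_ne hij,
        Matrix.one_apply_ne (fun e => hij (Fin.succ_injective _ e))]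
  ext i j
  rw [Matrix.mul_apply, Matrix.mul_apply, Fin.sum_univ_succ]
  have e0 : (A * (emb T - 1) : Matrix (Fin N) (Fin (m + 1)) D) i 0 = 0 := by
    rw [Matrix.mul_apply]
    exact Finset.sum_eq_zero fun k _ => by rw [h0', mul_zero]
  rw [e0, zero_mul, zero_add]
  refine Finset.sum_congr rfl fun k _ => ?_
  congr 1
  rw [Matrix.mul_apply, Matrix.mul_apply, Fin.sum_univ_succ, h0, mul_zero, zero_add]
  refine Finset.sum_congr rfl fun k' _ => ?_
  rw [h1]; rfl

theorem tendsto_sch {m : ℕ} {α : Type*} {l : Filter α}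
    {S : α → Matrix (Fin (m + 1)) (Fin (m + 1)) D} (hS : Tendsto S l (𝓝 1)) :
    Tendsto (fun x => sch (S x)) l (𝓝 1) := by
  have he : ∀ i j, Tendsto (fun x => S x i j) l
      (𝓝 ((1 : Matrix (Fin (m + 1)) (Fin (m + 1)) D) i j)) := fun i j =>
    (tendsto_pi_nhds.mp ((tendsto_pi_nhds.mp hS) i)) j
  have hi : Tendsto (fun x => (S x 0 0)⁻¹) l (𝓝 1) := by
    have := he 0 0
    rw [Matrix.one_apply_eq] at this
    simpa using this.inv₀ one_ne_zero
  refine tendsto_pi_nhds.mpr fun i => tendsto_pi_nhds.mpr fun j => ?_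
  have h1 := he i.succ j.succ
  have h2 := he i.succ 0
  have h3 := he 0 j.succ
  rw [Matrix.one_apply_ne (Fin.succ_ne_zero i)] at h2
  rw [Matrix.one_apply_ne (Fin.succ_ne_zero j).symm] at h3
  have h4 := h1.sub ((h2.mul hi).mul h3)
  have e : (1 : Matrix (Fin (m + 1)) (Fin (m + 1)) D) i.succ j.succ - 0 * 1 * 0
      = (1 : Matrix (Fin m) (Fin m) D) i j := by
    rw [zero_mul, zero_mul, sub_zero]
    by_cases hij : i = j
    · subst hij; simp
    · rw [Matrix.one_apply_ne hij,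
        Matrix.one_apply_ne (fun e => hij (Fin.succ_injective _ e))]
  rw [e] at h4
  exact h4

/-- **corners**: for fixed `A`, `B` with `B A = 1` the pivot sums of `1 + A (S - 1) B` and of `S`
agree for `S` near `1` -/
theorem ps_corner (h : Rd O I Ψ) (hI : IsOpen (I : Set D))
    (hinv : ∀ g : D, g ≠ 0 → ∀ᶠ u in 𝓝 (1 : D), Ψ (g * u * g⁻¹) = Ψ u) {N : ℕ} :
    ∀ (m : ℕ) (A : Matrix (Fin N) (Fin m) D) (B : Matrix (Fin m) (Fin N) D), B * A = 1 →
    ∀ {α : Type*} {l : Filter α} {S : α → Matrix (Fin m) (Fin m) D}, Tendsto S l (𝓝 1) →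
    ∀ᶠ x in l, ps Ψ N (1 + A * (S x - 1) * B) = ps Ψ m (S x)
  | 0, A, B, _, _, l, S, _ => by
    refine Filter.Eventually.of_forall fun x => ?_
    have : A * (S x - 1) * B = 0 := by
      ext i j
      rw [Matrix.mul_apply]; simp
    rw [this, add_zero, ps_one h, ps_zero]
  | m + 1, A, B, hBA, _, l, S, hS => by
    have he : ∀ i j, Tendsto (fun x => S x i j) l
        (𝓝 ((1 : Matrix (Fin (m + 1)) (Fin (m + 1)) D) i j)) := fun i j =>
      (tendsto_pi_nhds.mp ((tendsto_pi_nhds.mp hS) i)) j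
    have h00 : Tendsto (fun x => S x 0 0) l (𝓝 1) := by
      have := he 0 0
      rwa [Matrix.one_apply_eq] at this
    have hi : Tendsto (fun x => (S x 0 0)⁻¹) l (𝓝 1) := by
      simpa using h00.inv₀ one_ne_zero
    have hi0 : ∀ i : Fin m, Tendsto (fun x => S x i.succ 0) l (𝓝 0) := fun i => by
      have := he i.succ 0
      rwa [Matrix.one_apply_ne (Fin.succ_ne_zero i)] at this
    have h0j : ∀ j : Fin m, Tendsto (fun x => S x 0 j.succ) l (𝓝 0) := fun j => by
      have := he 0 j.succ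
      rwa [Matrix.one_apply_ne (Fin.succ_ne_zero j).symm] at this
    -- the four factors
    set e0 : Fin (m + 1) → D := (Fin.cons 1 (fun _ => 0) : Fin (m + 1) → D) with he0
    set c1 : _ → Fin (m + 1) → D := fun x =>
      (Fin.cons 0 (fun i : Fin m => S x i.succ 0 * (S x 0 0)⁻¹) : Fin (m + 1) → D) with hc1
    set c2 : _ → Fin (m + 1) → D := fun x =>
      (Fin.cons (S x 0 0 - 1) (fun _ => 0) : Fin (m + 1) → D) with hc2
    set b3 : _ → Fin (m + 1) → D := fun x =>
      (Fin.cons 0 (fun j : Fin m => (S x 0 0)⁻¹ * S x 0 j.succ) : Fin (m + 1) → D) with hb3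
    have t1 : ∀ i, Tendsto (fun x => c1 x i) l (𝓝 0) := by
      intro i
      refine Fin.cases ?_ (fun i' => ?_) i
      · simpa [hc1] using tendsto_const_nhds
      · have := (hi0 i').mul hi
        simpa [hc1] using this
    have t2 : ∀ i, Tendsto (fun x => c2 x i) l (𝓝 0) := by
      intro i
      refine Fin.cases ?_ (fun i' => ?_) i
      · have := h00.sub_const 1
        simpa [hc2] using this
      · simpa [hc2] using tendsto_const_nhds
    have t3 : ∀ i, Tendsto (fun x => b3 x i) l (𝓝 0) := by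
      intro i
      refine Fin.cases ?_ (fun i' => ?_) i
      · simpa [hb3] using tendsto_const_nhds
      · have := hi.mul (h0j i')
        simpa [hb3] using this
    have hmv : ∀ {c : _ → Fin (m + 1) → D}, (∀ i, Tendsto (fun x => c x i) l (𝓝 0)) →
        ∀ i, Tendsto (fun x => (A *ᵥ c x) i) l (𝓝 0) := by
      intro c hc i
      have := tendsto_finsetSum (Finset.univ : Finset (Fin (m + 1)))
        (fun (k : Fin (m + 1)) _ => (hc k).const_mul (A i k))
      simpa [Matrix.mulVec, dotProduct] using this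
    have hvm : ∀ {b : _ → Fin (m + 1) → D}, (∀ i, Tendsto (fun x => b x i) l (𝓝 0)) →
        ∀ i, Tendsto (fun x => (b x ᵥ* B) i) l (𝓝 0) := by
      intro b hb i
      have := tendsto_finsetSum (Finset.univ : Finset (Fin (m + 1)))
        (fun (k : Fin (m + 1)) _ => (hb k).mul_const (B k i))
      simpa [Matrix.vecMul, dotProduct] using this
    have v1 := rank1_col h hI hinv N (e0 ᵥ* B) (hmv t1)
    have v2 := rank1_col h hI hinv N (e0 ᵥ* B) (hmv t2)
    have v3 := rank1_row h hI hinv N (A *ᵥ e0) (hvm t3)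
    have hBA' : (B.submatrix Fin.succ id) * (A.submatrix id Fin.succ)
        = (1 : Matrix (Fin m) (Fin m) D) := by
      rw [← Matrix.submatrix_mul B A Fin.succ id Fin.succ Function.bijective_id, hBA]
      ext i j
      rw [Matrix.submatrix_apply]
      by_cases hij : i = j
      · subst hij; simp
      · rw [Matrix.one_apply_ne hij,
          Matrix.one_apply_ne (fun e => hij (Fin.succ_injective _ e))]
    have ih := ps_corner h hI hinv m _ _ hBA' (tendsto_sch hS)
    have hr : ∀ {c b : _ → Fin (m + 1) → D}, (Tendsto (fun x => vecMulVec (c x) (b x)) l (𝓝 0)) →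
        Tendsto (fun x => 1 + vecMulVec (c x) (b x)) l (𝓝 1) := by
      intro c b hcb
      simpa using hcb.const_add 1
    have r1 : Tendsto (fun x => vecMulVec (c1 x) e0) l (𝓝 0) :=
      tendsto_pi_nhds.mpr fun i => tendsto_pi_nhds.mpr fun j => by
        simpa [vecMulVec_apply] using (t1 i).mul_const (e0 j)
    have r2 : Tendsto (fun x => vecMulVec (c2 x) e0) l (𝓝 0) :=
      tendsto_pi_nhds.mpr fun i => tendsto_pi_nhds.mpr fun j => by
        simpa [vecMulVec_apply] using (t2 i).mul_const (e0 j)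
    have r3 : Tendsto (fun x => vecMulVec e0 (b3 x)) l (𝓝 0) :=
      tendsto_pi_nhds.mpr fun i => tendsto_pi_nhds.mpr fun j => by
        simpa [vecMulVec_apply] using (t3 j).const_mul (e0 i)
    have remb : Tendsto (fun x => emb (sch (S x))) l (𝓝 1) := by
      have hs := tendsto_sch hS
      refine tendsto_pi_nhds.mpr fun i => tendsto_pi_nhds.mpr fun j => ?_
      rw [← emb_one]
      refine Fin.cases ?_ (fun i' => ?_) i <;> refine Fin.cases ?_ (fun j' => ?_) j
      · simpa using tendsto_const_nhds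
      · simpa using tendsto_const_nhds
      · simpa using tendsto_const_nhds
      · simpa using (tendsto_pi_nhds.mp ((tendsto_pi_nhds.mp hs) i')) j'
    have g1 := ev_cg hI (tendsto_corner A B (hr (c := c1) (b := fun _ => e0) r1))
    have g2 := ev_cg hI (tendsto_corner A B (hr (c := c2) (b := fun _ => e0) r2))
    have g3 := ev_cg hI (tendsto_corner A B (hr (c := fun _ => e0) (b := b3) r3))
    have g4 := ev_cg hI (tendsto_corner A B remb)
    filter_upwards [v1, v2, v3, ih, g1, g2, g3, g4, ev_mem_one hI h00] with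
      x w1 w2 w3 w4 k1 k2 k3 k4 k0
    have hdot : ∀ p q : Fin (m + 1) → D, (p ᵥ* B) ⬝ᵥ (A *ᵥ q) = p ⬝ᵥ q := by
      intro p q
      rw [← Matrix.dotProduct_mulVec, Matrix.mulVec_mulVec, hBA, Matrix.one_mulVec]
    rw [hdot] at w1 w2 w3
    have d1 : e0 ⬝ᵥ c1 x = 0 := by
      simp [he0, hc1, dotProduct, Fin.sum_univ_succ]
    have d2 : e0 ⬝ᵥ c2 x = S x 0 0 - 1 := by
      simp [he0, hc2, dotProduct, Fin.sum_univ_succ]
    have d3 : b3 x ⬝ᵥ e0 = 0 := by
      simp [he0, hb3, dotProduct, Fin.sum_univ_succ]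
    rw [d1, add_zero, h.psi_one] at w1
    rw [d2, add_sub_cancel] at w2
    rw [d3, add_zero, h.psi_one] at w3
    rw [← corner_rank1] at w1 w2 w3
    rw [← corner_emb] at w4
    have hl := ldu (S x) (h.ne' k0)
    rw [ps_succ]
    conv_lhs => rw [hl]
    rw [corner_mul A B hBA, corner_mul A B hBA, corner_mul A B hBA,
      ps_mul h N _ _ k1 (k2.mul h (k4.mul h k3)), ps_mul h N _ _ k2 (k4.mul h k3),
      ps_mul h N _ _ k4 k3, w1, w2, w3, w4]
    abel

/-- **germ invariance of the pivot sum** under conjugation by a fixed element of `GL_m(D)` -/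
theorem ps_germ_conj (h : Rd O I Ψ) (hI : IsOpen (I : Set D))
    (hinv : ∀ g : D, g ≠ 0 → ∀ᶠ u in 𝓝 (1 : D), Ψ (g * u * g⁻¹) = Ψ u) {m : ℕ}
    (P P' : Matrix (Fin m) (Fin m) D) (hP : P' * P = 1) {α : Type*} {l : Filter α}
    {S : α → Matrix (Fin m) (Fin m) D} (hS : Tendsto S l (𝓝 1)) :
    ∀ᶠ x in l, ps Ψ m (P * S x * P') = ps Ψ m (S x) := by
  have hP' : P * P' = 1 := mul_eq_one_comm.mp hP
  filter_upwards [ps_corner h hI hinv m P P' hP hS] with x hx
  rw [← hx]
  congr 1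
  rw [mul_sub, sub_mul, mul_one, hP']
  abel

theorem ps_germ_eq (h : Rd O I Ψ) (hI : IsOpen (I : Set D))
    (hinv : ∀ g : D, g ≠ 0 → ∀ᶠ u in 𝓝 (1 : D), Ψ (g * u * g⁻¹) = Ψ u) {m : ℕ}
    (P P' : Matrix (Fin m) (Fin m) D) (hP : P' * P = 1) {α : Type*} {l : Filter α}
    {S T : α → Matrix (Fin m) (Fin m) D} (hS : Tendsto S l (𝓝 1))
    (hST : ∀ x, P * S x = T x * P) : ∀ᶠ x in l, ps Ψ m (T x) = ps Ψ m (S x) := by
  have hP' : P * P' = 1 := mul_eq_one_comm.mp hP
  filter_upwards [ps_germ_conj h hI hinv P P' hP hS] with x hx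
  rw [← hx]
  congr 1
  rw [hST, mul_assoc, hP', mul_one]

/-- **TRANSFER**: `E₁`, `E₂` fields inside `D` and `M`, `[M : E₁] = [M : E₂] = m`; `P` intertwines
the two `M`-actions on `D ^ m`.  Then `Ψ (N_{M/E₁} y) = Ψ (N_{M/E₂} y)` for `y` near `1`. -/
theorem transfer (h : Rd O I Ψ) (hI : IsOpen (I : Set D))
    (hinv : ∀ g : D, g ≠ 0 → ∀ᶠ u in 𝓝 (1 : D), Ψ (g * u * g⁻¹) = Ψ u)
    {E₁ E₂ M : Type*} [Field E₁] [Field E₂] [Field M] [Algebra E₁ M] [Algebra E₂ M] {m : ℕ}
    (b₁ : Module.Basis (Fin m) E₁ M) (b₂ : Module.Basis (Fin m) E₂ M) (φ₁ : E₁ →+* D)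
    (φ₂ : E₂ →+* D) (P P' : Matrix (Fin m) (Fin m) D) (hP : P' * P = 1)
    (hint : ∀ y : M, P * (Algebra.leftMulMatrix b₁ y).map φ₁
      = (Algebra.leftMulMatrix b₂ y).map φ₂ * P) {l : Filter M}
    (hl : Tendsto (fun y => (Algebra.leftMulMatrix b₁ y).map φ₁) l (𝓝 1)) :
    ∀ᶠ y in l, Ψ (φ₁ (Algebra.norm E₁ y)) = Ψ (φ₂ (Algebra.norm E₂ y)) := by
  have hP' : P * P' = 1 := mul_eq_one_comm.mp hP
  have hl2 : Tendsto (fun y => (Algebra.leftMulMatrix b₂ y).map φ₂) l (𝓝 1) := by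
    have hc : Continuous fun T : Matrix (Fin m) (Fin m) D => P * T * P' :=
      (continuous_const.matrix_mul continuous_id).matrix_mul continuous_const
    have h2 := (hc.tendsto 1).comp hl
    rw [mul_one, hP'] at h2
    refine h2.congr fun y => ?_
    simp only [Function.comp_apply]
    rw [hint, mul_assoc, hP', mul_one]
  filter_upwards [ps_germ_eq h hI hinv P P' hP hl hint, ev_cg hI hl, ev_cg hI hl2] with
    y h1 h2 h3
  have h4 := (ps_det h φ₁ _ h2).2
  have h5 := (ps_det h φ₂ _ h3).2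
  rw [← Algebra.norm_eq_matrix_det b₁] at h4
  rw [← Algebra.norm_eq_matrix_det b₂] at h5
  rw [← h4, ← h5, h1]

end germ

end Vale.Agent.P011.H605.Odd
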