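import Vale.Agent.P011.H605.Odd.GermPs
import Vale.Agent.P011.H612.Germ.Conj

/-!
# The relative determinant in the module topology, base change of homomorphisms near one

`k` a topological field, `C` a finite dimensional division `k`-algebra with the module topology.
`Good k F → Good k (ps F r)` on matrices; hence every homomorphism near one on `C` extends to
`Z' ⊗[Z] C` (`baseP`).
-/

open Matrix Filter Topology Module TensorProduct

namespace Vale.Agent.P011.H605.Odd

open Vale.Agent.P011.H731.Odd (Germ InvNear invNear_div vas_germ conj_germ)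
open Vale.Agent.P011.H677.GW

section top

variable (k : Type) [Field k] [TopologicalSpace k] [IsTopologicalDivisionRing k] [T2Space k]
variable (C : Type) [DivisionRing C] [Algebra k C] [FiniteDimensional k C]

/-- The module topology of a finite dimensional algebra is Hausdorff, in particular `T1`. -/
theorem t2_mod (A : Type) [AddCommGroup A] [Module k A] [FiniteDimensional k A] :
    @T2Space A (moduleTopology k A) := by
  let tA : TopologicalSpace A := moduleTopology k A
  have hA : IsModuleTopology k A := ⟨rfl⟩
  let b := finBasis k A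
  have hc : Continuous (b.equivFun : A →ₗ[k] (Fin (finrank k A) → k)) :=
    IsModuleTopology.continuous_of_linearMap _
  exact T2Space.of_injective_continuous (f := (b.equivFun : A →ₗ[k] (Fin (finrank k A) → k)))
    b.equivFun.injective hc

theorem t1_mod (A : Type) [AddCommGroup A] [Module k A] [FiniteDimensional k A] :
    @T1Space A (moduleTopology k A) := by
  let tA : TopologicalSpace A := moduleTopology k A
  have := t2_mod k A
  infer_instance

theorem continuousInv_mod : @ContinuousInv₀ C _ _ (moduleTopology k C) := by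
  let tA : TopologicalSpace C := moduleTopology k C
  have hA : IsModuleTopology k C := ⟨rfl⟩
  have hAr : IsTopologicalRing C := IsModuleTopology.isTopologicalRing k C
  have h1 : Tendsto (fun x : C => x⁻¹) (𝓝 1) (𝓝 1) := nb_inv k
  refine ⟨fun x hx => ?_⟩
  have h2 : Tendsto (fun y : C => x⁻¹ * y) (𝓝 x) (𝓝 1) := by
    have : Continuous fun y : C => x⁻¹ * y := continuous_const.mul continuous_id
    have h3 := this.tendsto x
    rwa [inv_mul_cancel₀ hx] at h3
  have h3 : Tendsto (fun y : C => (x⁻¹ * y)⁻¹ * x⁻¹) (𝓝 x) (𝓝 (1 * x⁻¹)) :=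
    (h1.comp h2).mul tendsto_const_nhds
  rw [one_mul] at h3
  have h4 : (fun y : C => (x⁻¹ * y)⁻¹ * x⁻¹) = fun y => y⁻¹ := by
    funext y
    rw [_root_.mul_inv_rev, inv_inv, mul_assoc, mul_inv_cancel₀ hx, mul_one]
  rw [h4] at h3
  exact h3

omit [IsTopologicalDivisionRing k] [T2Space k] in
/-- The neighbourhoods of one in a matrix algebra are those of the product topology. -/
theorem nb_matrix [IsTopologicalRing k] (A : Type) [Ring A] [Algebra k A] [FiniteDimensional k A] (r : ℕ) :
    nb k (Matrix (Fin r) (Fin r) A) =
      @nhds (Matrix (Fin r) (Fin r) A) (@Pi.topologicalSpace (Fin r) (fun _ => Fin r → A)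
        fun _ => @Pi.topologicalSpace (Fin r) (fun _ => A) fun _ => moduleTopology k A) 1 := by
  let tA : TopologicalSpace A := moduleTopology k A
  have hA : IsModuleTopology k A := ⟨rfl⟩
  have h1 : IsModuleTopology k (Fin r → Fin r → A) := inferInstance
  unfold nb
  have h2 := h1.eq_moduleTopology'
  exact congrArg (fun t => @nhds (Fin r → Fin r → A) t (1 : Matrix (Fin r) (Fin r) A)) h2.symm

end top

section good

variable {k : Type} [Field k] [TopologicalSpace k] [IsTopologicalDivisionRing k] [T2Space k]
variable {C : Type} [DivisionRing C] [Algebra k C] [FiniteDimensional k C]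
variable {E : Type} [AddCommGroup E] {F : C → E}

omit [IsTopologicalDivisionRing k] [T2Space k] [FiniteDimensional k C] in
/-- `Good` is `Germ` for the module topology. -/
theorem good_iff : Good k F ↔ @Vale.Agent.P011.H731.Odd.Germ C E _ (moduleTopology k C) _ F := by
  let tA : TopologicalSpace C := moduleTopology k C
  change (∀ᶠ p in 𝓝 (1 : C) ×ˢ 𝓝 (1 : C), F (p.1 * p.2) = F p.1 + F p.2) ↔ Germ F
  unfold Vale.Agent.P011.H731.Odd.Germ
  rw [nhds_prod_eq]

/-- **The relative determinant of a homomorphism near one is one.** -/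
theorem good_ps (hF : Good k F) (r : ℕ) : Good k (ps F r) := by
  let tA : TopologicalSpace C := moduleTopology k C
  have hA : IsModuleTopology k C := ⟨rfl⟩
  have hAr : IsTopologicalRing C := IsModuleTopology.isTopologicalRing k C
  have h1 : T1Space C := t1_mod k C
  have h2 : ContinuousInv₀ C := continuousInv_mod k C
  have h3 := germ_ps (good_iff.mp hF) r
  unfold Vale.Agent.P011.H731.Odd.Germ at h3
  rw [nhds_prod_eq] at h3
  unfold Good
  rw [nb_matrix k C r]
  exact h3

omit [TopologicalSpace k] [IsTopologicalDivisionRing k] [T2Space k] [FiniteDimensional k C]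
  [Algebra k C] [Field k] in
/-- scalar matrices, exact -/
theorem ps_scalar' (F : C → E) (r : ℕ) (x : C) : ps F r (Matrix.scalar (Fin r) x) = r • F x :=
  ps_scalar F r x

end good

section base

variable {Z : Type} [Field Z] {C : Type} [DivisionRing C] [Algebra Z C]
variable {Z' : Type} [Field Z'] [Algebra Z Z'] [FiniteDimensional Z Z']

/-- The left regular representation of `Z'` with entries in `C`. -/
noncomputable def rz (Z C Z' : Type) [Field Z] [DivisionRing C] [Algebra Z C] [Field Z']
    [Algebra Z Z'] [FiniteDimensional Z Z'] :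
    Z' →ₐ[Z] Matrix (Fin (finrank Z Z')) (Fin (finrank Z Z')) C :=
  (Algebra.ofId Z C).mapMatrix.comp (Algebra.leftMulMatrix (finBasis Z Z'))

/-- The scalar matrices. -/
noncomputable def sz (Z C : Type) [Field Z] [DivisionRing C] [Algebra Z C] (r : ℕ) :
    C →ₐ[Z] Matrix (Fin r) (Fin r) C :=
  { Matrix.scalar (Fin r) with
    commutes' := fun z => by
      ext i j
      simp [Matrix.scalar_apply, Matrix.algebraMap_matrix_apply, Matrix.diagonal_apply] }

theorem sz_apply (r : ℕ) (x : C) : sz Z C r x = Matrix.scalar (Fin r) x := rfl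

theorem rz_comm (z : Z') (x : C) : Commute (rz Z C Z' z) (sz Z C (finrank Z Z') x) := by
  rw [sz_apply]
  ext i j
  rw [Matrix.scalar_apply, Matrix.mul_diagonal, Matrix.diagonal_mul]
  exact Algebra.commutes (R := Z) _ x

/-- `Z' ⊗ C → M_r(C)`, `r = [Z' : Z]`. -/
noncomputable def phi (Z C Z' : Type) [Field Z] [DivisionRing C] [Algebra Z C] [Field Z']
    [Algebra Z Z'] [FiniteDimensional Z Z'] :
    Z' ⊗[Z] C →ₐ[Z] Matrix (Fin (finrank Z Z')) (Fin (finrank Z Z')) C :=
  Algebra.TensorProduct.lift (rz Z C Z') (sz Z C (finrank Z Z')) rz_comm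

theorem phi_one_tmul (x : C) : phi Z C Z' (1 ⊗ₜ[Z] x) = Matrix.scalar _ x := by
  rw [phi, Algebra.TensorProduct.lift_tmul, map_one, one_mul, sz_apply]

end base

/-- **Base change of homomorphisms near one.** -/
theorem baseP (k : Type) [Field k] [TopologicalSpace k] [IsTopologicalDivisionRing k] [T2Space k]
    (E : Type) [AddCommGroup E] : BaseP k E := by
  intro Z _ _ _ C _ _ _ _ _ Z' _ _ _ _ _ F hF
  have : FiniteDimensional k C := FiniteDimensional.trans k Z C
  refine ⟨fun x => ps F (finrank Z Z') (((phi Z C Z').restrictScalars k) x),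
    Good.comp (good_ps hF _) _, Filter.Eventually.of_forall fun x => ?_⟩
  change ps F _ (phi Z C Z' (1 ⊗ₜ[Z] x)) = _
  rw [phi_one_tmul, ps_scalar']

end Vale.Agent.P011.H605.Odd
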