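import Mathlib

/-!
# A relative Dieudonne determinant (pivot sum) near the identity

`D` a division ring, `O` a subring, `I ⊆ O` a two-sided ideal of `O` such that `1 + I` consists of
units with inverse in `1 + I`, and `Ψ : D → E` additive on `1 + I` with `Ψ (1 + x y) = Ψ (1 + y x)`
(`x ∈ I`, `y ∈ O`).  The sum `ps Ψ m X` of the values of `Ψ` at the pivots of `X` is additive on the
matrices which are `1` modulo `I`, and invariant under conjugation by `GL_m(O)`.
-/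

open Matrix

namespace Vale.Agent.P011.H605.Odd

variable {D E : Type*} [DivisionRing D] [AddCommGroup E]

/-- the data: `O`, `I`, `Ψ` -/
structure Rd (O : Subring D) (I : AddSubgroup D) (Ψ : D → E) : Prop where
  le : ∀ x ∈ I, x ∈ O
  mul_left : ∀ a ∈ O, ∀ x ∈ I, a * x ∈ I
  mul_right : ∀ x ∈ I, ∀ a ∈ O, x * a ∈ I
  ne : ∀ x ∈ I, 1 + x ≠ 0
  inv : ∀ x ∈ I, (1 + x)⁻¹ - 1 ∈ I
  add : ∀ x ∈ I, ∀ y ∈ I, Ψ ((1 + x) * (1 + y)) = Ψ (1 + x) + Ψ (1 + y)
  comm : ∀ x ∈ I, ∀ y ∈ O, Ψ (1 + x * y) = Ψ (1 + y * x)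

/-- Schur complement of the entry `(0, 0)` -/
def sch {m : ℕ} (X : Matrix (Fin (m + 1)) (Fin (m + 1)) D) : Matrix (Fin m) (Fin m) D :=
  fun i j => X i.succ j.succ - X i.succ 0 * (X 0 0)⁻¹ * X 0 j.succ

/-- the pivot sum -/
def ps (Ψ : D → E) : (m : ℕ) → Matrix (Fin m) (Fin m) D → E
  | 0, _ => 0
  | m + 1, X => Ψ (X 0 0) + ps Ψ m (sch X)

/-- `X` is the identity modulo `I` -/
def Cg (I : AddSubgroup D) {m : ℕ} (X : Matrix (Fin m) (Fin m) D) : Prop :=
  ∀ i j, (X - 1) i j ∈ I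

theorem ps_zero (Ψ : D → E) (X : Matrix (Fin 0) (Fin 0) D) : ps Ψ 0 X = 0 := rfl

theorem ps_succ (Ψ : D → E) {m : ℕ} (X : Matrix (Fin (m + 1)) (Fin (m + 1)) D) :
    ps Ψ (m + 1) X = Ψ (X 0 0) + ps Ψ m (sch X) := rfl

theorem ps_one' (Ψ : D → E) (X : Matrix (Fin 1) (Fin 1) D) : ps Ψ 1 X = Ψ (X 0 0) := by
  rw [ps_succ, ps_zero, add_zero]

section basic

variable {O : Subring D} {I : AddSubgroup D} {Ψ : D → E}

theorem Rd.psi_one (h : Rd O I Ψ) : Ψ 1 = 0 := by
  have := h.add 0 I.zero_mem 0 I.zero_mem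
  simpa using this

theorem Rd.add' (h : Rd O I Ψ) {u v : D} (hu : u - 1 ∈ I) (hv : v - 1 ∈ I) :
    Ψ (u * v) = Ψ u + Ψ v := by
  have := h.add _ hu _ hv
  simpa using this

theorem Rd.ne' (h : Rd O I Ψ) {u : D} (hu : u - 1 ∈ I) : u ≠ 0 := by
  have := h.ne _ hu
  simpa using this

theorem Rd.inv' (h : Rd O I Ψ) {u : D} (hu : u - 1 ∈ I) : u⁻¹ - 1 ∈ I := by
  have := h.inv _ hu
  simpa using this

theorem Rd.mulI (h : Rd O I Ψ) {u v : D} (hu : u - 1 ∈ I) (hv : v - 1 ∈ I) : u * v - 1 ∈ I := by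
  have h1 := I.add_mem (I.add_mem hu hv) (h.mul_left _ (h.le _ hu) _ hv)
  have : u * v - 1 = (u - 1) + (v - 1) + (u - 1) * (v - 1) := by noncomm_ring
  rw [this]; exact h1

theorem Rd.memO (h : Rd O I Ψ) {u : D} (hu : u - 1 ∈ I) : u ∈ O := by
  have := O.add_mem (h.le _ hu) O.one_mem
  simpa using this

theorem Rd.psi_inv (h : Rd O I Ψ) {u : D} (hu : u - 1 ∈ I) : Ψ u⁻¹ = - Ψ u := by
  have h1 := h.add' hu (h.inv' hu)
  rw [mul_inv_cancel₀ (h.ne' hu), h.psi_one] at h1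
  exact (neg_eq_of_add_eq_zero_right h1.symm).symm

theorem Cg.diag {m : ℕ} {X : Matrix (Fin m) (Fin m) D} (hX : Cg I X) (i : Fin m) :
    X i i - 1 ∈ I := by
  have := hX i i
  simpa using this

theorem Cg.off {m : ℕ} {X : Matrix (Fin m) (Fin m) D} (hX : Cg I X) {i j : Fin m} (hij : i ≠ j) :
    X i j ∈ I := by
  have := hX i j
  simpa [Matrix.one_apply_ne hij] using this

theorem cg_of {m : ℕ} {X : Matrix (Fin m) (Fin m) D} (h1 : ∀ i, X i i - 1 ∈ I)
    (h2 : ∀ i j, i ≠ j → X i j ∈ I) : Cg I X := by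
  intro i j
  by_cases hij : i = j
  · subst hij; simpa using h1 i
  · simpa [Matrix.one_apply_ne hij] using h2 i j hij

theorem cg_one {m : ℕ} : Cg I (1 : Matrix (Fin m) (Fin m) D) := by
  intro i j; simp

theorem Cg.memO (h : Rd O I Ψ) {m : ℕ} {X : Matrix (Fin m) (Fin m) D} (hX : Cg I X) (i j : Fin m) :
    X i j ∈ O := by
  by_cases hij : i = j
  · subst hij; exact h.memO (hX.diag i)
  · exact h.le _ (hX.off hij)

theorem Cg.mul (h : Rd O I Ψ) {m : ℕ} {X Y : Matrix (Fin m) (Fin m) D} (hX : Cg I X)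
    (hY : Cg I Y) : Cg I (X * Y) := by
  have e : X * Y - 1 = (X - 1) * (Y - 1) + ((X - 1) + (Y - 1)) := by noncomm_ring
  intro i j
  rw [e, Matrix.add_apply, Matrix.add_apply, Matrix.mul_apply]
  refine I.add_mem (I.sum_mem fun k _ => ?_) (I.add_mem (hX i j) (hY i j))
  exact h.mul_left _ (h.le _ (hX i k)) _ (hY k j)

theorem Cg.sch (h : Rd O I Ψ) {m : ℕ} {X : Matrix (Fin (m + 1)) (Fin (m + 1)) D} (hX : Cg I X) :
    Cg I (sch X) := by
  have h0 : ∀ i : Fin m, X i.succ 0 ∈ I := fun i => hX.off (Fin.succ_ne_zero i)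
  have h0' : ∀ j : Fin m, X 0 j.succ ∈ I := fun j => hX.off (Fin.succ_ne_zero j).symm
  have hc : ∀ i j : Fin m, X i.succ 0 * (X 0 0)⁻¹ * X 0 j.succ ∈ I := fun i j =>
    h.mul_left _ (O.mul_mem (h.le _ (h0 i)) (h.memO (h.inv' (hX.diag 0)))) _ (h0' j)
  refine cg_of (fun i => ?_) (fun i j hij => ?_)
  · have := I.sub_mem (hX.diag i.succ) (hc i i)
    have e : Odd.sch X i i - 1 = X i.succ i.succ - 1 - X i.succ 0 * (X 0 0)⁻¹ * X 0 i.succ := by
      simp only [Odd.sch]; abel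
    rw [e]; exact this
  · exact I.sub_mem (hX.off (fun e => hij (Fin.succ_injective _ e))) (hc i j)

end basic

/-! ### rank one perturbations -/

section rank1

variable {O : Subring D} {I : AddSubgroup D} {Ψ : D → E}

/-- a column and a row, one of them in `I`, the other in `O` -/
def CB (O : Subring D) (I : AddSubgroup D) {m : ℕ} (c b : Fin m → D) : Prop :=
  ((∀ i, c i ∈ I) ∧ (∀ i, b i ∈ O)) ∨ ((∀ i, c i ∈ O) ∧ (∀ i, b i ∈ I))

theorem CB.mem (h : Rd O I Ψ) {m : ℕ} {c b : Fin m → D} (hcb : CB O I c b) (i j : Fin m) :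
    c i * b j ∈ I := by
  rcases hcb with ⟨hc, hb⟩ | ⟨hc, hb⟩
  · exact h.mul_right _ (hc i) _ (hb j)
  · exact h.mul_left _ (hc i) _ (hb j)

theorem CB.mem' (h : Rd O I Ψ) {m : ℕ} {c b : Fin m → D} (hcb : CB O I c b) (i j : Fin m) :
    b i * c j ∈ I := by
  rcases hcb with ⟨hc, hb⟩ | ⟨hc, hb⟩
  · exact h.mul_left _ (hb i) _ (hc j)
  · exact h.mul_right _ (hb i) _ (hc j)

theorem CB.comm (h : Rd O I Ψ) {m : ℕ} {c b : Fin m → D} (hcb : CB O I c b) (i j : Fin m) :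
    Ψ (1 + c i * b j) = Ψ (1 + b j * c i) := by
  rcases hcb with ⟨hc, hb⟩ | ⟨hc, hb⟩
  · exact h.comm _ (hc i) _ (hb j)
  · exact (h.comm _ (hb j) _ (hc i)).symm

theorem CB.dot (h : Rd O I Ψ) {m : ℕ} {c b : Fin m → D} (hcb : CB O I c b) :
    b ⬝ᵥ c ∈ I := I.sum_mem fun i _ => hcb.mem' h i i

theorem CB.cg (h : Rd O I Ψ) {m : ℕ} {c b : Fin m → D} (hcb : CB O I c b) :
    Cg I (1 + vecMulVec c b) := by
  intro i j
  rw [add_sub_cancel_left, vecMulVec_apply]
  exact hcb.mem h i j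

theorem mem_of_one_add {x : D} (h : Rd O I Ψ) (hx : x ∈ I) : (1 + x)⁻¹ - 1 ∈ I := h.inv x hx

/-- **rank one perturbations**: the pivot sum of `1 + c b` is `Ψ (1 + b c)` -/
theorem ps_rank1 (h : Rd O I Ψ) : ∀ (m : ℕ) (c b : Fin m → D), CB O I c b →
    ps Ψ m (1 + vecMulVec c b) = Ψ (1 + b ⬝ᵥ c)
  | 0, c, b, _ => by simp [ps_zero, dotProduct, h.psi_one]
  | m + 1, c, b, hcb => by
    have hx : c 0 * b 0 ∈ I := hcb.mem h 0 0
    have hy : b 0 * c 0 ∈ I := hcb.mem' h 0 0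
    have hx1 : (1 : D) + c 0 * b 0 ≠ 0 := h.ne _ hx
    have hy1 : (1 : D) + b 0 * c 0 ≠ 0 := h.ne _ hy
    have hyi : (1 + b 0 * c 0)⁻¹ ∈ O := h.memO (h.inv _ hy)
    -- the key identity
    have key : 1 - b 0 * (1 + c 0 * b 0)⁻¹ * c 0 = (1 + b 0 * c 0)⁻¹ := by
      apply eq_inv_of_mul_eq_one_left
      have e1 : (1 + c 0 * b 0)⁻¹ * (c 0 * (1 + b 0 * c 0)) = c 0 := by
        rw [show c 0 * (1 + b 0 * c 0) = (1 + c 0 * b 0) * c 0 by noncomm_ring,
          inv_mul_cancel_left₀ hx1]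
      calc (1 - b 0 * (1 + c 0 * b 0)⁻¹ * c 0) * (1 + b 0 * c 0)
          = 1 + b 0 * c 0 - b 0 * ((1 + c 0 * b 0)⁻¹ * (c 0 * (1 + b 0 * c 0))) := by
            noncomm_ring
        _ = 1 := by rw [e1]; abel
    set c' : Fin m → D := fun i => c i.succ * (1 + b 0 * c 0)⁻¹ with hc'
    set b' : Fin m → D := fun j => b j.succ with hb'
    have hcb' : CB O I c' b' := by
      rcases hcb with ⟨hc, hb⟩ | ⟨hc, hb⟩
      · exact Or.inl ⟨fun i => h.mul_right _ (hc _) _ hyi, fun j => hb _⟩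
      · exact Or.inr ⟨fun i => O.mul_mem (hc _) hyi, fun j => hb _⟩
    have hs : sch (1 + vecMulVec c b) = 1 + vecMulVec c' b' := by
      ext i j
      have e0 : (1 + vecMulVec c b) i.succ j.succ = (1 : Matrix (Fin m) (Fin m) D) i j
          + c i.succ * b j.succ := by
        rw [Matrix.add_apply, vecMulVec_apply]
        congr 1
        by_cases hij : i = j
        · subst hij; simp
        · rw [Matrix.one_apply_ne hij,
            Matrix.one_apply_ne (fun e => hij (Fin.succ_injective _ e))]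
      have e1 : (1 + vecMulVec c b) i.succ 0 = c i.succ * b 0 := by
        rw [Matrix.add_apply, vecMulVec_apply, Matrix.one_apply_ne (Fin.succ_ne_zero i), zero_add]
      have e2 : (1 + vecMulVec c b) 0 j.succ = c 0 * b j.succ := by
        rw [Matrix.add_apply, vecMulVec_apply, Matrix.one_apply_ne (Fin.succ_ne_zero j).symm,
          zero_add]
      have e3 : (1 + vecMulVec c b) 0 0 = 1 + c 0 * b 0 := by
        rw [Matrix.add_apply, vecMulVec_apply, Matrix.one_apply_eq]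
      simp only [sch]
      rw [e0, e1, e2, e3, Matrix.add_apply, vecMulVec_apply, hc', hb']
      simp only
      rw [← key]
      noncomm_ring
    have e3 : (1 + vecMulVec c b) 0 0 = 1 + c 0 * b 0 := by
      rw [Matrix.add_apply, vecMulVec_apply, Matrix.one_apply_eq]
    rw [ps_succ, hs, e3, ps_rank1 h m c' b' hcb', hcb.comm h 0 0]
    have hd : b' ⬝ᵥ c' ∈ I := hcb'.dot h
    have e4 : (1 + b' ⬝ᵥ c') * (1 + b 0 * c 0) = 1 + b ⬝ᵥ c := by
      have e5 : b' ⬝ᵥ c' * (1 + b 0 * c 0) = ∑ i : Fin m, b i.succ * c i.succ := by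
        simp only [dotProduct, hc', hb', Finset.sum_mul]
        refine Finset.sum_congr rfl fun i _ => ?_
        rw [mul_assoc, mul_assoc, inv_mul_cancel₀ hy1, mul_one]
      rw [add_mul, one_mul, e5]
      simp only [dotProduct, Fin.sum_univ_succ]
      abel
    rw [← e4, h.add _ hd _ hy]
    abel

end rank1

/-! ### additivity -/

section mul

variable {O : Subring D} {I : AddSubgroup D} {Ψ : D → E}

/-- the Schur complement of a product -/
theorem sch_mul {m : ℕ} (X Y : Matrix (Fin (m + 1)) (Fin (m + 1)) D) (hX : X 0 0 ≠ 0)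
    (hY : Y 0 0 ≠ 0)
    (ht : 1 + (fun j : Fin m => (X 0 0)⁻¹ * X 0 j.succ) ⬝ᵥ
      (fun i : Fin m => Y i.succ 0 * (Y 0 0)⁻¹) ≠ 0) :
    (X * Y) 0 0 = X 0 0 * (1 + (fun j : Fin m => (X 0 0)⁻¹ * X 0 j.succ) ⬝ᵥ
      (fun i : Fin m => Y i.succ 0 * (Y 0 0)⁻¹)) * Y 0 0 ∧
    sch (X * Y) = sch X * (1 + vecMulVec
      (fun i : Fin m => Y i.succ 0 * (Y 0 0)⁻¹ * -(1 + (fun j : Fin m => (X 0 0)⁻¹ * X 0 j.succ) ⬝ᵥ
      (fun i : Fin m => Y i.succ 0 * (Y 0 0)⁻¹))⁻¹)
      (fun j : Fin m => (X 0 0)⁻¹ * X 0 j.succ)) * sch Y := by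
  set a := X 0 0 with ha
  set a' := Y 0 0 with ha'
  set β : Fin m → D := fun j => a⁻¹ * X 0 j.succ with hβ
  set γ : Fin m → D := fun i => Y i.succ 0 * a'⁻¹ with hγ
  set q : D := β ⬝ᵥ γ with hq
  set t : D := 1 + q with htt
  set S := sch X with hS
  set S' := sch Y with hS'
  have hb : ∀ j : Fin m, X 0 j.succ = a * β j := fun j => by
    rw [hβ]; simp only; rw [mul_inv_cancel_left₀ hX]
  have hc' : ∀ i : Fin m, Y i.succ 0 = γ i * a' := fun i => by
    rw [hγ]; simp only; rw [mul_assoc, inv_mul_cancel₀ hY, mul_one]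
  have hM : ∀ i k : Fin m, X i.succ k.succ = S i k + X i.succ 0 * β k := fun i k => by
    rw [hS, hβ]; simp only [sch]; rw [← ha]; noncomm_ring
  have hM' : ∀ k j : Fin m, Y k.succ j.succ = S' k j + γ k * Y 0 j.succ := fun k j => by
    rw [hS', hγ]; simp only [sch]; rw [← ha']; noncomm_ring
  have h00 : (X * Y) 0 0 = a * t * a' := by
    rw [Matrix.mul_apply, Fin.sum_univ_succ]
    have : ∑ i : Fin m, X 0 i.succ * Y i.succ 0 = a * q * a' := by
      rw [hq, dotProduct, Finset.mul_sum, Finset.sum_mul]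
      refine Finset.sum_congr rfl fun i _ => ?_
      rw [hb, hc']; noncomm_ring
    rw [this, htt, ← ha, ← ha']; noncomm_ring
  refine ⟨h00, ?_⟩
  have hi0 : ∀ i : Fin m, (X * Y) i.succ 0 = (X i.succ 0 * t + ∑ k, S i k * γ k) * a' := by
    intro i
    rw [Matrix.mul_apply, Fin.sum_univ_succ]
    have : ∑ k : Fin m, X i.succ k.succ * Y k.succ 0
        = (∑ k, S i k * γ k + X i.succ 0 * q) * a' := by
      rw [hq, dotProduct, Finset.mul_sum, ← Finset.sum_add_distrib, Finset.sum_mul]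
      refine Finset.sum_congr rfl fun k _ => ?_
      rw [hM, hc']; noncomm_ring
    rw [this, htt, ← ha']; noncomm_ring
  have h0j : ∀ j : Fin m, (X * Y) 0 j.succ = a * (t * Y 0 j.succ + ∑ k, β k * S' k j) := by
    intro j
    rw [Matrix.mul_apply, Fin.sum_univ_succ]
    have : ∑ k : Fin m, X 0 k.succ * Y k.succ j.succ
        = a * (∑ k, β k * S' k j + q * Y 0 j.succ) := by
      rw [hq, dotProduct, Finset.sum_mul, ← Finset.sum_add_distrib, Finset.mul_sum]
      refine Finset.sum_congr rfl fun k _ => ?_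
      rw [hM', hb]; noncomm_ring
    rw [this, htt, ← ha]; noncomm_ring
  have hij : ∀ i j : Fin m, (X * Y) i.succ j.succ = ∑ k, S i k * S' k j
      + (∑ k, S i k * γ k) * Y 0 j.succ + X i.succ 0 * (∑ k, β k * S' k j)
      + X i.succ 0 * t * Y 0 j.succ := by
    intro i j
    rw [Matrix.mul_apply, Fin.sum_univ_succ]
    have : ∑ k : Fin m, X i.succ k.succ * Y k.succ j.succ
        = ∑ k, S i k * S' k j + (∑ k, S i k * γ k) * Y 0 j.succ
          + X i.succ 0 * (∑ k, β k * S' k j) + X i.succ 0 * q * Y 0 j.succ := by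
      rw [hq, dotProduct, Finset.mul_sum, Finset.mul_sum, Finset.sum_mul, Finset.sum_mul,
        ← Finset.sum_add_distrib, ← Finset.sum_add_distrib, ← Finset.sum_add_distrib]
      refine Finset.sum_congr rfl fun k _ => ?_
      rw [hM', hM]; noncomm_ring
    rw [this, htt]; noncomm_ring
  ext i j
  have hR : (S * (1 + vecMulVec (fun i : Fin m => γ i * -t⁻¹) β) * S') i j
      = ∑ k, S i k * S' k j - (∑ k, S i k * γ k) * t⁻¹ * (∑ k, β k * S' k j) := by
    have e1 : S * (1 + vecMulVec (fun i : Fin m => γ i * -t⁻¹) β) * S'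
        = S * S' + S * vecMulVec (fun i : Fin m => γ i * -t⁻¹) β * S' := by noncomm_ring
    rw [e1, Matrix.add_apply, Matrix.mul_apply, sub_eq_add_neg]
    congr 1
    rw [Matrix.mul_apply, Finset.mul_sum, ← Finset.sum_neg_distrib]
    refine Finset.sum_congr rfl fun k _ => ?_
    rw [Matrix.mul_apply]
    have : ∑ l, S i l * vecMulVec (fun i : Fin m => γ i * -t⁻¹) β l k
        = -((∑ l, S i l * γ l) * t⁻¹ * β k) := by
      rw [Finset.sum_mul, Finset.sum_mul, ← Finset.sum_neg_distrib]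
      refine Finset.sum_congr rfl fun l _ => ?_
      rw [vecMulVec_apply]; noncomm_ring
    rw [this]; noncomm_ring
  rw [hR]
  simp only [sch]
  rw [h00, hi0, h0j, hij]
  have e2 : a' * (a * t * a')⁻¹ * a = t⁻¹ := by
    rw [_root_.mul_inv_rev, _root_.mul_inv_rev]
    rw [show a' * (a'⁻¹ * (t⁻¹ * a⁻¹)) * a = (a' * a'⁻¹) * t⁻¹ * (a⁻¹ * a) by noncomm_ring,
      mul_inv_cancel₀ hY, inv_mul_cancel₀ hX, one_mul, mul_one]
  set B := ∑ k, S i k * γ k with hB
  set C := ∑ k, β k * S' k j with hC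
  have e3 : (X i.succ 0 * t + B) * a' * (a * t * a')⁻¹ * (a * (t * Y 0 j.succ + C))
      = (X i.succ 0 * t + B) * (a' * (a * t * a')⁻¹ * a) * (t * Y 0 j.succ + C) := by
    noncomm_ring
  rw [e3, e2]
  have e4 : (X i.succ 0 * t + B) * t⁻¹ * (t * Y 0 j.succ + C)
      = X i.succ 0 * (t * t⁻¹) * t * Y 0 j.succ + X i.succ 0 * (t * t⁻¹) * C
        + B * (t⁻¹ * t) * Y 0 j.succ + B * t⁻¹ * C := by noncomm_ring
  rw [e4, mul_inv_cancel₀ ht, inv_mul_cancel₀ ht]
  noncomm_ring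

theorem dot_neg_inv {m : ℕ} (β γ : Fin m → D) (ht : 1 + β ⬝ᵥ γ ≠ 0) :
    1 + β ⬝ᵥ (fun i : Fin m => γ i * -(1 + β ⬝ᵥ γ)⁻¹) = (1 + β ⬝ᵥ γ)⁻¹ := by
  have e2 : (1 + β ⬝ᵥ γ) * (1 + β ⬝ᵥ γ)⁻¹ = 1 := mul_inv_cancel₀ ht
  generalize (1 + β ⬝ᵥ γ)⁻¹ = s at *
  have e1 : β ⬝ᵥ (fun i : Fin m => γ i * -s) = -((β ⬝ᵥ γ) * s) := by
    rw [dotProduct, dotProduct, Finset.sum_mul, ← Finset.sum_neg_distrib]
    refine Finset.sum_congr rfl fun i _ => ?_
    noncomm_ring
  rw [e1, ← sub_eq_add_neg, sub_eq_iff_eq_add, ← e2, add_mul, one_mul]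

/-- **additivity of the pivot sum** -/
theorem ps_mul (h : Rd O I Ψ) : ∀ (m : ℕ) (X Y : Matrix (Fin m) (Fin m) D), Cg I X → Cg I Y →
    ps Ψ m (X * Y) = ps Ψ m X + ps Ψ m Y
  | 0, X, Y, _, _ => by simp [ps_zero]
  | m + 1, X, Y, hX, hY => by
    have hXi := h.memO (h.inv' (hX.diag 0))
    have hYi := h.memO (h.inv' (hY.diag 0))
    set β : Fin m → D := fun j => (X 0 0)⁻¹ * X 0 j.succ with hβ
    set γ : Fin m → D := fun i => Y i.succ 0 * (Y 0 0)⁻¹ with hγ
    have hβI : ∀ j, β j ∈ I := fun j =>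
      h.mul_left _ hXi _ (hX.off (Fin.succ_ne_zero j).symm)
    have hγI : ∀ i, γ i ∈ I := fun i =>
      h.mul_right _ (hY.off (Fin.succ_ne_zero i)) _ hYi
    have hcb : CB O I γ β := Or.inl ⟨hγI, fun j => h.le _ (hβI j)⟩
    have hq : β ⬝ᵥ γ ∈ I := hcb.dot h
    have ht : 1 + β ⬝ᵥ γ ≠ 0 := h.ne _ hq
    obtain ⟨h1, h2⟩ := sch_mul X Y (h.ne' (hX.diag 0)) (h.ne' (hY.diag 0)) ht
    rw [← hβ, ← hγ] at h1 h2
    have hti : (1 + β ⬝ᵥ γ)⁻¹ ∈ O := h.memO (h.inv _ hq)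
    have hcb' : CB O I (fun i : Fin m => γ i * -(1 + β ⬝ᵥ γ)⁻¹) β :=
      Or.inl ⟨fun i => h.mul_right _ (hγI i) _ (O.neg_mem hti), fun j => h.le _ (hβI j)⟩
    rw [ps_succ, ps_succ, ps_succ, h1, h2]
    rw [ps_mul h m _ _ ((hX.sch h).mul h (hcb'.cg h)) (hY.sch h),
      ps_mul h m _ _ (hX.sch h) (hcb'.cg h), ps_rank1 h m _ _ hcb']
    have ht1 : (1 + β ⬝ᵥ γ) - 1 ∈ I := by simpa using hq
    rw [h.add' (h.mulI (hX.diag 0) ht1) (hY.diag 0), h.add' (hX.diag 0) ht1]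
    have e := dot_neg_inv β γ ht
    rw [e, h.psi_inv ht1]
    abel

end mul


/-! ### generation by rank one elements, conjugation -/

section conj

variable {O : Subring D} {I : AddSubgroup D} {Ψ : D → E}

/-- rank one elements -/
def R1 (O : Subring D) (I : AddSubgroup D) {m : ℕ} (X : Matrix (Fin m) (Fin m) D) : Prop :=
  ∃ c b : Fin m → D, CB O I c b ∧ X = 1 + vecMulVec c b

theorem R1.cg (h : Rd O I Ψ) {m : ℕ} {X : Matrix (Fin m) (Fin m) D} (hX : R1 O I X) : Cg I X := by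
  obtain ⟨c, b, hcb, rfl⟩ := hX
  exact hcb.cg h

/-- the embedding `S ↦ diag(1, S)` -/
def emb {m : ℕ} (S : Matrix (Fin m) (Fin m) D) : Matrix (Fin (m + 1)) (Fin (m + 1)) D :=
  fun i j => Fin.cases (Fin.cases 1 (fun _ => 0) j) (fun i' => Fin.cases 0 (fun j' => S i' j') j) i

@[simp] theorem emb_zero_zero {m : ℕ} (S : Matrix (Fin m) (Fin m) D) : emb S 0 0 = 1 := rfl
@[simp] theorem emb_zero_succ {m : ℕ} (S : Matrix (Fin m) (Fin m) D) (j : Fin m) :
    emb S 0 j.succ = 0 := rfl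
@[simp] theorem emb_succ_zero {m : ℕ} (S : Matrix (Fin m) (Fin m) D) (i : Fin m) :
    emb S i.succ 0 = 0 := rfl
@[simp] theorem emb_succ_succ {m : ℕ} (S : Matrix (Fin m) (Fin m) D) (i j : Fin m) :
    emb S i.succ j.succ = S i j := rfl

theorem emb_one {m : ℕ} : emb (1 : Matrix (Fin m) (Fin m) D) = 1 := by
  ext i j
  refine Fin.cases ?_ (fun i' => ?_) i <;> refine Fin.cases ?_ (fun j' => ?_) j
  · simp
  · simp [Matrix.one_apply_ne (Fin.succ_ne_zero j').symm]
  · simp [Matrix.one_apply_ne (Fin.succ_ne_zero i')]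
  · by_cases h : i' = j'
    · subst h; simp
    · rw [emb_succ_succ, Matrix.one_apply_ne h,
        Matrix.one_apply_ne (fun e => h (Fin.succ_injective _ e))]

theorem emb_mul {m : ℕ} (S T : Matrix (Fin m) (Fin m) D) : emb (S * T) = emb S * emb T := by
  ext i j
  rw [Matrix.mul_apply, Fin.sum_univ_succ]
  refine Fin.cases ?_ (fun i' => ?_) i <;> refine Fin.cases ?_ (fun j' => ?_) j
  · simp
  · simp
  · simp
  · simp [Matrix.mul_apply]

theorem R1.emb {m : ℕ} {X : Matrix (Fin m) (Fin m) D} (hX : R1 O I X) :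
    R1 O I (emb X) := by
  obtain ⟨c, b, hcb, rfl⟩ := hX
  refine ⟨Fin.cons 0 c, Fin.cons 0 b, ?_, ?_⟩
  · rcases hcb with ⟨hc, hb⟩ | ⟨hc, hb⟩
    · refine Or.inl ⟨fun i => ?_, fun i => ?_⟩
      · refine Fin.cases ?_ (fun i' => ?_) i
        · simp [I.zero_mem]
        · simpa using hc i'
      · refine Fin.cases ?_ (fun i' => ?_) i
        · simp [O.zero_mem]
        · simpa using hb i'
    · refine Or.inr ⟨fun i => ?_, fun i => ?_⟩
      · refine Fin.cases ?_ (fun i' => ?_) i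
        · simp [O.zero_mem]
        · simpa using hc i'
      · refine Fin.cases ?_ (fun i' => ?_) i
        · simp [I.zero_mem]
        · simpa using hb i'
  · ext i j
    rw [Matrix.add_apply, vecMulVec_apply]
    refine Fin.cases ?_ (fun i' => ?_) i <;> refine Fin.cases ?_ (fun j' => ?_) j
    · simp
    · simp [Matrix.one_apply_ne (Fin.succ_ne_zero j').symm]
    · simp [Matrix.one_apply_ne (Fin.succ_ne_zero i')]
    · rw [emb_succ_succ, Fin.cons_succ, Fin.cons_succ, Matrix.add_apply, vecMulVec_apply]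
      congr 1
      by_cases h : i' = j'
      · subst h; simp
      · rw [Matrix.one_apply_ne h, Matrix.one_apply_ne (fun e => h (Fin.succ_injective _ e))]

/-- `LDU` in one step -/
theorem ldu {m : ℕ} (X : Matrix (Fin (m + 1)) (Fin (m + 1)) D) (hX : X 0 0 ≠ 0) :
    X = (1 + vecMulVec (Fin.cons 0 (fun i : Fin m => X i.succ 0 * (X 0 0)⁻¹) : Fin (m + 1) → D)
          (Fin.cons 1 (fun _ => 0) : Fin (m + 1) → D)) *
        ((1 + vecMulVec (Fin.cons (X 0 0 - 1) (fun _ => 0) : Fin (m + 1) → D)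
          (Fin.cons 1 (fun _ => 0) : Fin (m + 1) → D)) * (emb (sch X) *
        (1 + vecMulVec (Fin.cons 1 (fun _ => 0) : Fin (m + 1) → D)
          (Fin.cons 0 (fun j : Fin m => (X 0 0)⁻¹ * X 0 j.succ) : Fin (m + 1) → D)))) := by
  -- the last product
  set U := (1 + vecMulVec (Fin.cons 1 (fun _ => 0) : Fin (m + 1) → D)
          (Fin.cons 0 (fun j : Fin m => (X 0 0)⁻¹ * X 0 j.succ) : Fin (m + 1) → D)) with hU
  have u00 : U 0 0 = 1 := by simp [hU, vecMulVec_apply]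
  have u0j : ∀ j : Fin m, U 0 j.succ = (X 0 0)⁻¹ * X 0 j.succ := fun j => by
    simp [hU, vecMulVec_apply, Matrix.one_apply_ne (Fin.succ_ne_zero j).symm]
  have ui0 : ∀ i : Fin m, U i.succ 0 = 0 := fun i => by
    simp [hU, vecMulVec_apply, Matrix.one_apply_ne (Fin.succ_ne_zero i)]
  have uij : ∀ i j : Fin m, U i.succ j.succ = (1 : Matrix (Fin m) (Fin m) D) i j := fun i j => by
    rw [hU, Matrix.add_apply, vecMulVec_apply, Fin.cons_succ, zero_mul, add_zero]
    by_cases h : i = j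
    · subst h; simp
    · rw [Matrix.one_apply_ne h, Matrix.one_apply_ne (fun e => h (Fin.succ_injective _ e))]
  set P := emb (sch X) * U with hP
  have p00 : P 0 0 = 1 := by rw [hP, Matrix.mul_apply, Fin.sum_univ_succ]; simp [u00]
  have p0j : ∀ j : Fin m, P 0 j.succ = (X 0 0)⁻¹ * X 0 j.succ := fun j => by
    rw [hP, Matrix.mul_apply, Fin.sum_univ_succ]; simp [u0j]
  have pi0 : ∀ i : Fin m, P i.succ 0 = 0 := fun i => by
    rw [hP, Matrix.mul_apply, Fin.sum_univ_succ]; simp [ui0]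
  have pij : ∀ i j : Fin m, P i.succ j.succ = sch X i j := fun i j => by
    rw [hP, Matrix.mul_apply, Fin.sum_univ_succ]
    simp only [emb_succ_zero, zero_mul, zero_add, emb_succ_succ, uij]
    rw [← Matrix.mul_apply, Matrix.mul_one]
  have hv : ∀ (c : Fin (m + 1) → D) (Q : Matrix (Fin (m + 1)) (Fin (m + 1)) D) (i j),
      ((1 + vecMulVec c (Fin.cons 1 (fun _ => 0) : Fin (m + 1) → D)) * Q) i j
        = Q i j + c i * Q 0 j := fun c Q i j => by
    rw [add_mul, one_mul, Matrix.add_apply, Matrix.mul_apply, Fin.sum_univ_succ]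
    simp [vecMulVec_apply]
  ext i j
  rw [hv, hv, hv]
  refine Fin.cases ?_ (fun i' => ?_) i <;> refine Fin.cases ?_ (fun j' => ?_) j
  · simp [p00]
  · simp only [Fin.cons_zero, p0j, zero_mul, add_zero]
    rw [sub_mul, one_mul, mul_inv_cancel_left₀ hX]; abel
  · simp only [Fin.cons_zero, Fin.cons_succ, p00, pi0, add_zero, zero_add, mul_one]
    rw [show (1 : D) + (X 0 0 - 1) = X 0 0 by abel, mul_assoc, inv_mul_cancel₀ hX, mul_one]
  · simp only [Fin.cons_zero, Fin.cons_succ, p0j, pij, zero_mul, add_zero]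
    rw [sub_mul, one_mul, mul_inv_cancel_left₀ hX]
    rw [show (X 0 0)⁻¹ * X 0 j'.succ + (X 0 j'.succ - (X 0 0)⁻¹ * X 0 j'.succ) = X 0 j'.succ by abel]
    simp only [sch]; abel

/-- every matrix which is `1` modulo `I` is a product of rank one elements -/
theorem exists_list (h : Rd O I Ψ) : ∀ (m : ℕ) (X : Matrix (Fin m) (Fin m) D), Cg I X →
    ∃ l : List (Matrix (Fin m) (Fin m) D), (∀ Y ∈ l, R1 O I Y) ∧ l.prod = X
  | 0, X, _ => ⟨[], by simp, by ext i; exact i.elim0⟩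
  | m + 1, X, hX => by
    obtain ⟨l, hl, hp⟩ := exists_list h m (sch X) (hX.sch h)
    have hXi := h.memO (h.inv' (hX.diag 0))
    have key : ∀ A B C : Matrix (Fin (m + 1)) (Fin (m + 1)) D,
        X = A * (B * (emb (sch X) * C)) → R1 O I A → R1 O I B → R1 O I C →
        ∃ l : List (Matrix (Fin (m + 1)) (Fin (m + 1)) D), (∀ Y ∈ l, R1 O I Y) ∧ l.prod = X := by
      intro A B C hABC hA hB hC
      refine ⟨A :: B :: (l.map emb ++ [C]), ?_, ?_⟩
      · intro Y hY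
        rw [List.mem_cons, List.mem_cons, List.mem_append, List.mem_singleton,
          List.mem_map] at hY
        rcases hY with rfl | rfl | ⟨Z, hZ, rfl⟩ | rfl
        · exact hA
        · exact hB
        · exact (hl Z hZ).emb
        · exact hC
      · conv_rhs => rw [hABC]
        rw [List.prod_cons, List.prod_cons, List.prod_append, List.prod_singleton]
        have : (l.map emb).prod = emb (sch X) := by
          rw [← hp]
          clear hp hl
          induction l with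
          | nil => simp [emb_one]
          | cons a l ih => rw [List.map_cons, List.prod_cons, List.prod_cons, emb_mul, ih]
        rw [this]
    have h1 : ∀ i, (Fin.cons 1 (fun _ => 0) : Fin (m + 1) → D) i ∈ O := fun i => by
      refine Fin.cases ?_ (fun i' => ?_) i
      · simp [O.one_mem]
      · simp [O.zero_mem]
    refine key _ _ _ (ldu X (h.ne' (hX.diag 0))) ⟨_, _, Or.inl ⟨fun i => ?_, h1⟩, rfl⟩
      ⟨_, _, Or.inl ⟨fun i => ?_, h1⟩, rfl⟩ ⟨_, _, Or.inr ⟨h1, fun i => ?_⟩, rfl⟩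
    · refine Fin.cases ?_ (fun i' => ?_) i
      · simp [I.zero_mem]
      · simpa using h.mul_right _ (hX.off (Fin.succ_ne_zero i')) _ hXi
    · refine Fin.cases ?_ (fun i' => ?_) i
      · simpa using hX.diag 0
      · simp [I.zero_mem]
    · refine Fin.cases ?_ (fun i' => ?_) i
      · simp [I.zero_mem]
      · simpa using h.mul_left _ hXi _ (hX.off (Fin.succ_ne_zero i').symm)

theorem cg_list (h : Rd O I Ψ) {m : ℕ} : ∀ l : List (Matrix (Fin m) (Fin m) D),
    (∀ Y ∈ l, Cg I Y) → Cg I l.prod ∧ ps Ψ m l.prod = (l.map (ps Ψ m)).sum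
  | [], _ => by
    refine ⟨by simpa using cg_one, ?_⟩
    have := ps_mul h m 1 1 cg_one cg_one
    rw [mul_one] at this
    simpa using this
  | a :: l, hl => by
    obtain ⟨h1, h2⟩ := cg_list h l fun Y hY => hl Y (List.mem_cons_of_mem _ hY)
    have ha := hl a List.mem_cons_self
    rw [List.prod_cons, List.map_cons, List.sum_cons]
    exact ⟨ha.mul h h1, by rw [ps_mul h m _ _ ha h1, h2]⟩

theorem ps_one (h : Rd O I Ψ) (m : ℕ) : ps Ψ m 1 = 0 := by
  simpa using (cg_list h (m := m) [] (by simp)).2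

/-- **conjugation by `GL_m(O)`** -/
theorem ps_conj (h : Rd O I Ψ) {m : ℕ} (k k' : Matrix (Fin m) (Fin m) D) (hkk : k' * k = 1)
    (hk : ∀ i j, k i j ∈ O) (hk' : ∀ i j, k' i j ∈ O) (X : Matrix (Fin m) (Fin m) D)
    (hX : Cg I X) : Cg I (k * X * k') ∧ ps Ψ m (k * X * k') = ps Ψ m X := by
  have hkk' : k * k' = 1 := by
    exact mul_eq_one_comm.mp hkk
  obtain ⟨l, hl, rfl⟩ := exists_list h m X hX
  have e : k * l.prod * k' = (l.map fun Y => k * Y * k').prod := by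
    clear hl hX
    induction l with
    | nil => simp [hkk']
    | cons a l ih =>
      rw [List.prod_cons, List.map_cons, List.prod_cons, ← ih]
      calc k * (a * l.prod) * k' = k * a * 1 * l.prod * k' := by noncomm_ring
        _ = k * a * k' * (k * l.prod * k') := by rw [← hkk]; noncomm_ring
  have h1 : ∀ Y ∈ l, R1 O I (k * Y * k') ∧ ps Ψ m (k * Y * k') = ps Ψ m Y := by
    intro Y hY
    obtain ⟨c, b, hcb, rfl⟩ := hl Y hY
    have e1 : k * (1 + vecMulVec c b) * k' = 1 + vecMulVec (k *ᵥ c) (b ᵥ* k') := by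
      rw [mul_add, add_mul, mul_one, hkk', Matrix.mul_vecMulVec, Matrix.vecMulVec_mul]
    have hcb' : CB O I (k *ᵥ c) (b ᵥ* k') := by
      rcases hcb with ⟨hc, hb⟩ | ⟨hc, hb⟩
      · refine Or.inl ⟨fun i => ?_, fun j => ?_⟩
        · change ∑ j, k i j * c j ∈ I
          exact I.sum_mem fun j _ => h.mul_left _ (hk i j) _ (hc j)
        · change ∑ i, b i * k' i j ∈ O
          exact O.sum_mem fun i _ => O.mul_mem (hb i) (hk' i j)
      · refine Or.inr ⟨fun i => ?_, fun j => ?_⟩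
        · change ∑ j, k i j * c j ∈ O
          exact O.sum_mem fun j _ => O.mul_mem (hk i j) (hc j)
        · change ∑ i, b i * k' i j ∈ I
          exact I.sum_mem fun i _ => h.mul_right _ (hb i) _ (hk' i j)
    refine ⟨⟨_, _, hcb', e1⟩, ?_⟩
    rw [e1, ps_rank1 h m _ _ hcb', ps_rank1 h m _ _ hcb]
    congr 2
    rw [← Matrix.dotProduct_mulVec, Matrix.mulVec_mulVec, hkk, Matrix.one_mulVec]
  have h2 := cg_list h (l.map fun Y => k * Y * k') (by
    intro Z hZ
    obtain ⟨Y, hY, rfl⟩ := List.mem_map.mp hZ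
    exact (h1 Y hY).1.cg h)
  rw [e]
  refine ⟨h2.1, ?_⟩
  rw [h2.2, (cg_list h l fun Y hY => (hl Y hY).cg h).2, List.map_map]
  congr 1
  exact List.map_congr_left fun Y hY => (h1 Y hY).2

/-- conjugation by a diagonal matrix -/
def dconj {m : ℕ} (δ : Fin m → D) (X : Matrix (Fin m) (Fin m) D) : Matrix (Fin m) (Fin m) D :=
  fun i j => δ i * X i j * (δ j)⁻¹

theorem dconj_eq {m : ℕ} (δ : Fin m → D) (X : Matrix (Fin m) (Fin m) D) :
    dconj δ X = Matrix.diagonal δ * X * Matrix.diagonal (fun i => (δ i)⁻¹) := by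
  ext i j
  rw [Matrix.mul_diagonal, Matrix.diagonal_mul, dconj]

theorem sch_dconj {m : ℕ} (δ : Fin (m + 1) → D) (hδ : δ 0 ≠ 0)
    (X : Matrix (Fin (m + 1)) (Fin (m + 1)) D) :
    sch (dconj δ X) = dconj (fun i => δ i.succ) (sch X) := by
  ext i j
  simp only [sch, dconj]
  have e0 : (δ 0 * X 0 0 * (δ 0)⁻¹)⁻¹ = δ 0 * (X 0 0)⁻¹ * (δ 0)⁻¹ := by
    rw [_root_.mul_inv_rev, _root_.mul_inv_rev, inv_inv, mul_assoc]
  rw [e0]
  have e1 : δ i.succ * X i.succ 0 * (δ 0)⁻¹ * (δ 0 * (X 0 0)⁻¹ * (δ 0)⁻¹)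
      * (δ 0 * X 0 j.succ * (δ j.succ)⁻¹)
      = δ i.succ * X i.succ 0 * ((δ 0)⁻¹ * δ 0) * (X 0 0)⁻¹ * ((δ 0)⁻¹ * δ 0)
        * X 0 j.succ * (δ j.succ)⁻¹ := by noncomm_ring
  rw [e1, inv_mul_cancel₀ hδ, mul_one, mul_one]
  noncomm_ring

/-- **conjugation by diagonal matrices** (no bound on the entries) -/
theorem ps_dconj (h : Rd O I Ψ)
    (hΨ : ∀ g : D, g ≠ 0 → ∀ u, u - 1 ∈ I → Ψ (g * u * g⁻¹) = Ψ u) :
    ∀ (m : ℕ) (δ : Fin m → D), (∀ i, δ i ≠ 0) → ∀ X : Matrix (Fin m) (Fin m) D, Cg I X →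
    ps Ψ m (dconj δ X) = ps Ψ m X
  | 0, _, _, _, _ => rfl
  | m + 1, δ, hδ, X, hX => by
    rw [ps_succ, ps_succ, sch_dconj δ (hδ 0) X,
      ps_dconj h hΨ m (fun i => δ i.succ) (fun i => hδ _) (sch X) (hX.sch h)]
    rw [show dconj δ X 0 0 = δ 0 * X 0 0 * (δ 0)⁻¹ from rfl, hΨ _ (hδ 0) _ (hX.diag 0)]

/-- **conjugation by `k₁ δ k₂`** (Cartan form): `X` and `g X g⁻¹` both `1` modulo `I` -/
theorem ps_cartan (h : Rd O I Ψ)
    (hΨ : ∀ g : D, g ≠ 0 → ∀ u, u - 1 ∈ I → Ψ (g * u * g⁻¹) = Ψ u) {m : ℕ}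
    (k₁ k₁' k₂ k₂' : Matrix (Fin m) (Fin m) D) (δ : Fin m → D) (hδ : ∀ i, δ i ≠ 0)
    (h1 : k₁' * k₁ = 1) (h2 : k₂' * k₂ = 1) (hk1 : ∀ i j, k₁ i j ∈ O) (hk1' : ∀ i j, k₁' i j ∈ O)
    (hk2 : ∀ i j, k₂ i j ∈ O) (hk2' : ∀ i j, k₂' i j ∈ O)
    (X Z : Matrix (Fin m) (Fin m) D) (hX : Cg I X) (hZ : Cg I Z)
    (e : Z * (k₁ * Matrix.diagonal δ * k₂) = (k₁ * Matrix.diagonal δ * k₂) * X) :
    ps Ψ m Z = ps Ψ m X := by
  have h1' : k₁ * k₁' = 1 := mul_eq_one_comm.mp h1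
  have h2' : k₂ * k₂' = 1 := mul_eq_one_comm.mp h2
  obtain ⟨a1, a2⟩ := ps_conj h k₂ k₂' h2 hk2 hk2' X hX
  obtain ⟨b1, b2⟩ := ps_conj h k₁' k₁ h1' hk1' hk1 Z hZ
  have hd : Matrix.diagonal δ * Matrix.diagonal (fun i => (δ i)⁻¹) = 1 := by
    rw [Matrix.diagonal_mul_diagonal, ← Matrix.diagonal_one]
    congr 1; funext i; exact mul_inv_cancel₀ (hδ i)
  have e2 : k₁' * Z * k₁ = dconj δ (k₂ * X * k₂') := by
    rw [dconj_eq]
    calc k₁' * Z * k₁ = k₁' * Z * k₁ * (Matrix.diagonal δ * (k₂ * k₂') *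
          Matrix.diagonal (fun i => (δ i)⁻¹)) := by rw [h2', mul_one, hd, mul_one]
      _ = k₁' * (Z * (k₁ * Matrix.diagonal δ * k₂)) * k₂' *
          Matrix.diagonal (fun i => (δ i)⁻¹) := by noncomm_ring
      _ = (k₁' * k₁) * Matrix.diagonal δ * (k₂ * X * k₂') *
          Matrix.diagonal (fun i => (δ i)⁻¹) := by rw [e]; noncomm_ring
      _ = _ := by rw [h1, one_mul]
  rw [← b2, e2, ps_dconj h hΨ m δ hδ _ a1, a2]

end conj

/-! ### special values -/

section special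

variable {O : Subring D} {I : AddSubgroup D} {Ψ : D → E}

theorem ps_diagonal (Ψ : D → E) : ∀ (m : ℕ) (d : Fin m → D),
    ps Ψ m (Matrix.diagonal d) = ∑ i, Ψ (d i)
  | 0, _ => by simp [ps_zero]
  | m + 1, d => by
    have e : sch (Matrix.diagonal d) = Matrix.diagonal fun i : Fin m => d i.succ := by
      ext i j
      simp only [sch]
      rw [Matrix.diagonal_apply_ne _ (Fin.succ_ne_zero i), zero_mul, zero_mul, sub_zero]
      by_cases h : i = j
      · subst h; simp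
      · rw [Matrix.diagonal_apply_ne _ h,
          Matrix.diagonal_apply_ne _ (fun e => h (Fin.succ_injective _ e))]
    rw [ps_succ, e, ps_diagonal Ψ m, Fin.sum_univ_succ, Matrix.diagonal_apply_eq]

/-- triangular matrices: only the diagonal counts -/
theorem ps_lower (Ψ : D → E) : ∀ (m : ℕ) (X : Matrix (Fin m) (Fin m) D),
    (∀ i j, i < j → X i j = 0) → ps Ψ m X = ∑ i, Ψ (X i i)
  | 0, _, _ => by simp [ps_zero]
  | m + 1, X, hX => by
    have e : sch X = fun i j : Fin m => X i.succ j.succ := by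
      ext i j
      simp only [sch]
      rw [hX 0 j.succ (Fin.succ_pos j), mul_zero, sub_zero]
    rw [ps_succ, Fin.sum_univ_succ, ps_lower Ψ m (sch X) (by
      intro i j hij
      rw [e]
      exact hX _ _ (Fin.succ_lt_succ_iff.mpr hij)), e]

theorem ps_upper (Ψ : D → E) : ∀ (m : ℕ) (X : Matrix (Fin m) (Fin m) D),
    (∀ i j, j < i → X i j = 0) → ps Ψ m X = ∑ i, Ψ (X i i)
  | 0, _, _ => by simp [ps_zero]
  | m + 1, X, hX => by
    have e : sch X = fun i j : Fin m => X i.succ j.succ := by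
      ext i j
      simp only [sch]
      rw [hX i.succ 0 (Fin.succ_pos i), zero_mul, zero_mul, sub_zero]
    rw [ps_succ, Fin.sum_univ_succ, ps_upper Ψ m (sch X) (by
      intro i j hij
      rw [e]
      exact hX _ _ (Fin.succ_lt_succ_iff.mpr hij)), e]

/-- restriction of the data along a homomorphism from a field (or division ring) -/
theorem Rd.comap (h : Rd O I Ψ) {F : Type*} [DivisionRing F] (φ : F →+* D) :
    Rd (O.comap φ) (I.comap φ.toAddMonoidHom) (fun x => Ψ (φ x)) where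
  le x hx := h.le _ hx
  mul_left a ha x hx := by
    change φ (a * x) ∈ I
    rw [map_mul]; exact h.mul_left _ ha _ hx
  mul_right x hx a ha := by
    change φ (x * a) ∈ I
    rw [map_mul]; exact h.mul_right _ hx _ ha
  ne x hx e := by
    refine h.ne _ hx ?_
    have := congrArg φ e
    simpa using this
  inv x hx := by
    change φ ((1 + x)⁻¹ - 1) ∈ I
    rw [map_sub, map_inv₀, map_add, map_one]; exact h.inv _ hx
  add x hx y hy := by
    simp only [map_mul, map_add, map_one]; exact h.add _ hx _ hy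
  comm x hx y hy := by
    simp only [map_mul, map_add, map_one]; exact h.comm _ hx _ hy

theorem sch_map {F : Type*} [DivisionRing F] (φ : F →+* D) {m : ℕ}
    (B : Matrix (Fin (m + 1)) (Fin (m + 1)) F) : sch (B.map φ) = (sch B).map φ := by
  ext i j
  simp only [sch, Matrix.map_apply]
  rw [map_sub, map_mul, map_mul, map_inv₀]

theorem ps_map (Ψ : D → E) {F : Type*} [DivisionRing F] (φ : F →+* D) : ∀ (m : ℕ)
    (B : Matrix (Fin m) (Fin m) F), ps Ψ m (B.map φ) = ps (fun x => Ψ (φ x)) m B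
  | 0, _ => rfl
  | m + 1, B => by
    rw [ps_succ, ps_succ, sch_map, ps_map Ψ φ m]; rfl

theorem ps_det_field {F : Type*} [Field F] {O : Subring F} {I : AddSubgroup F} {Ψ : F → E}
    (h : Rd O I Ψ) {m : ℕ} (B : Matrix (Fin m) (Fin m) F) (hB : Cg I B) :
    B.det - 1 ∈ I ∧ ps Ψ m B = Ψ B.det := by
  obtain ⟨l, hl, rfl⟩ := exists_list h m B hB
  clear hB
  have key : ∀ l : List (Matrix (Fin m) (Fin m) F), (∀ Y ∈ l, R1 O I Y) →
      l.prod.det - 1 ∈ I ∧ ps Ψ m l.prod = Ψ l.prod.det := by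
    intro l
    induction l with
    | nil =>
      intro _
      simp only [List.prod_nil, Matrix.det_one, sub_self]
      exact ⟨I.zero_mem, by rw [ps_one h, h.psi_one]⟩
    | cons a l ih =>
      intro hl
      obtain ⟨h1, h2⟩ := ih fun Y hY => hl Y (List.mem_cons_of_mem _ hY)
      have h3 := (cg_list h l fun Y hY => (hl Y (List.mem_cons_of_mem _ hY)).cg h).1
      have ha := hl a List.mem_cons_self
      have hac := ha.cg h
      obtain ⟨c, b, hcb, rfl⟩ := ha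
      have hd : (1 + vecMulVec c b).det = 1 + b ⬝ᵥ c := by
        rw [Matrix.vecMulVec_eq Unit]
        exact Matrix.det_one_add_replicateCol_mul_replicateRow c b
      have hI : (1 + b ⬝ᵥ c) - 1 ∈ I := by simpa using hcb.dot h
      rw [List.prod_cons, Matrix.det_mul, hd]
      refine ⟨h.mulI hI h1, ?_⟩
      rw [ps_mul h m _ _ hac h3, ps_rank1 h m c b hcb, h2, h.add' hI h1]
  exact key l hl

/-- **matrices over a subfield**: the pivot sum is the value at the determinant -/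
theorem ps_det (h : Rd O I Ψ) {F : Type*} [Field F] (φ : F →+* D) {m : ℕ}
    (B : Matrix (Fin m) (Fin m) F) (hB : Cg I (B.map φ)) :
    φ B.det - 1 ∈ I ∧ ps Ψ m (B.map φ) = Ψ (φ B.det) := by
  have hB' : Cg (I.comap φ.toAddMonoidHom) B := by
    intro i j
    change φ ((B - 1) i j) ∈ I
    have := hB i j
    rw [Matrix.sub_apply, Matrix.map_apply] at this
    rw [Matrix.sub_apply, map_sub]
    by_cases hij : i = j
    · subst hij; simpa using this
    · simpa [Matrix.one_apply_ne hij] using this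
  obtain ⟨h1, h2⟩ := ps_det_field (h.comap φ) B hB'
  refine ⟨?_, ?_⟩
  · have h3 : φ (B.det - 1) ∈ I := h1
    rwa [map_sub, map_one] at h3
  · rw [ps_map, h2]

end special

end Vale.Agent.P011.H605.Odd
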