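import Vale.Agent.P011.H605.Odd.Germ
import Vale.Agent.P011.H731.Odd.Vas

/-!
# The relative determinant of a germ of homomorphism

`D` a topological division ring, `Ψ : D → E` additive near `1` (`Germ Ψ`, helper731).  Then the
pivot sum `ps Ψ m` on `M_m(D)` is additive near `1` (`germ_ps`), and its values on rank one
perturbations, corners, blocks and matrices over subfields are computed, without any ideal.
-/

open Matrix Filter Topology

namespace Vale.Agent.P011.H605.Odd

open Vale.Agent.P011.H731.Odd (Germ InvNear invNear_div vas_germ conj_germ)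

variable {D E : Type*} [DivisionRing D] [AddCommGroup E]
variable [TopologicalSpace D] [IsTopologicalRing D] [ContinuousInv₀ D] [T1Space D]
variable {Ψ : D → E}

omit [AddCommGroup E] [IsTopologicalRing D] [ContinuousInv₀ D] in
theorem ev_ne {α : Type*} {l : Filter α} {f : α → D} (hf : Tendsto f l (𝓝 1)) :
    ∀ᶠ x in l, f x ≠ 0 := hf.eventually_ne one_ne_zero

omit [AddCommGroup E] [T1Space D] [IsTopologicalRing D] in
theorem tendsto_inv_one {α : Type*} {l : Filter α} {f : α → D} (hf : Tendsto f l (𝓝 1)) :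
    Tendsto (fun x => (f x)⁻¹) l (𝓝 1) := by
  simpa using hf.inv₀ one_ne_zero

omit [IsTopologicalRing D] in
theorem Germ.inv (hΨ : Germ Ψ) {α : Type*} {l : Filter α} {f : α → D}
    (hf : Tendsto f l (𝓝 1)) : ∀ᶠ x in l, Ψ (f x)⁻¹ = - Ψ (f x) := by
  filter_upwards [hΨ.comp hf (tendsto_inv_one hf), ev_ne hf] with x h1 h2
  rw [mul_inv_cancel₀ h2, hΨ.one] at h1
  exact (neg_eq_of_add_eq_zero_right h1.symm).symm

/-- the relation `Ψ (1 + x y) = Ψ (1 + y x)` for `x`, `y` both small -/
theorem ev_vas (hΨ : Germ Ψ) {α : Type*} {l : Filter α} {f g : α → D}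
    (hf : Tendsto f l (𝓝 0)) (hg : Tendsto g l (𝓝 0)) :
    ∀ᶠ x in l, Ψ (1 + f x * g x) = Ψ (1 + g x * f x) := by
  have hf' : Tendsto (fun x => -f x) l (𝓝 0) := by simpa using hf.neg
  have h1 := (hf'.prodMk_nhds hg).eventually (vas_germ hΨ invNear_div)
  refine h1.mono fun x hx => ?_
  simpa using hx

omit [TopologicalSpace D] [IsTopologicalRing D] [ContinuousInv₀ D] [T1Space D]
  [AddCommGroup E] in
theorem one_add_ne {a b : D} (h : (1 : D) + b * a ≠ 0) : (1 : D) + a * b ≠ 0 := by
  intro e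
  apply h
  have ha : a ≠ 0 := by
    rintro rfl
    simp at e
  have e1 : a * b = -1 := by
    rw [← add_eq_zero_iff_eq_neg, add_comm]; exact e
  have e2 : b = -a⁻¹ := by
    have : a⁻¹ * (a * b) = a⁻¹ * (-1) := by rw [e1]
    rw [inv_mul_cancel_left₀ ha] at this
    rw [this]; simp
  rw [e2, neg_mul, inv_mul_cancel₀ ha]
  simp

/-- rank one perturbations, general form -/
theorem ps_rank1_ev (hΨ : Germ Ψ) {α : Type*} {l : Filter α} :
    ∀ (m : ℕ) (c b : α → Fin m → D),
    (∀ i (u : α → D), Tendsto u l (𝓝 1) →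
      ∀ᶠ x in l, Ψ (1 + c x i * u x * b x i) = Ψ (1 + b x i * (c x i * u x))) →
    (∀ i j, Tendsto (fun x => b x i * c x j) l (𝓝 0)) →
    ∀ᶠ x in l, ps Ψ m (1 + vecMulVec (c x) (b x)) = Ψ (1 + b x ⬝ᵥ c x)
  | 0, c, b, _, _ => by
    refine Filter.Eventually.of_forall fun x => ?_
    simp [ps_zero, dotProduct, hΨ.one]
  | m + 1, c, b, H, T => by
    have t2 : Tendsto (fun x => 1 + b x 0 * c x 0) l (𝓝 1) := by
      simpa using (T 0 0).const_add 1
    have t3 := tendsto_inv_one t2
    have ih := ps_rank1_ev hΨ m (fun x i => c x i.succ * (1 + b x 0 * c x 0)⁻¹)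
      (fun x j => b x j.succ) (by
        intro i u hu
        have h1 : Tendsto (fun x => (1 + b x 0 * c x 0)⁻¹ * u x) l (𝓝 1) := by
          simpa using t3.mul hu
        refine (H i.succ _ h1).mono fun x hx => ?_
        rw [← mul_assoc] at hx
        exact hx) (by
        intro i j
        have h1 := (T i.succ j.succ).mul t3
        rw [zero_mul] at h1
        refine h1.congr fun x => ?_
        rw [mul_assoc])
    have t5 : Tendsto (fun x => 1 + (fun j : Fin m => b x j.succ) ⬝ᵥ
        (fun i : Fin m => c x i.succ * (1 + b x 0 * c x 0)⁻¹)) l (𝓝 1) := by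
      have h1 := tendsto_finsetSum (Finset.univ : Finset (Fin m))
        (fun (i : Fin m) _ => (T i.succ i.succ).mul t3)
      simp only [zero_mul, Finset.sum_const_zero] at h1
      have h2 := h1.const_add 1
      rw [add_zero] at h2
      refine h2.congr fun x => ?_
      simp only [dotProduct, mul_assoc]
    have h0 := H 0 (fun _ => 1) tendsto_const_nhds
    filter_upwards [h0, ih, ev_ne t2, hΨ.comp t5 t2] with x h1 h2 h3 h4
    simp only [mul_one] at h1
    rw [ps_succ, sch_rank1 _ _ (one_add_ne h3), h2, Matrix.add_apply,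
      vecMulVec_apply, Matrix.one_apply_eq, h1, ← dot_rank1 (c x) (b x) h3, h4]
    abel

/-- both small -/
theorem ps_rank1_small (hΨ : Germ Ψ) {α : Type*} {l : Filter α} {m : ℕ} {c b : α → Fin m → D}
    (hc : ∀ i, Tendsto (fun x => c x i) l (𝓝 0)) (hb : ∀ i, Tendsto (fun x => b x i) l (𝓝 0)) :
    ∀ᶠ x in l, ps Ψ m (1 + vecMulVec (c x) (b x)) = Ψ (1 + b x ⬝ᵥ c x) := by
  refine ps_rank1_ev hΨ m c b (fun i u hu => ?_) (fun i j => by simpa using (hb i).mul (hc j))
  have h1 : Tendsto (fun x => c x i * u x) l (𝓝 0) := by simpa using (hc i).mul hu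
  exact ev_vas hΨ h1 (hb i)

/-- germ invariance under every fixed nonzero element -/
def GInv (Ψ : D → E) : Prop := ∀ g : D, g ≠ 0 → ∀ᶠ u in 𝓝 (1 : D), Ψ (g * u * g⁻¹) = Ψ u

/-- the row fixed, the column small -/
theorem ps_rank1_col (hΨ : Germ Ψ) (hi : GInv Ψ) {α : Type*} {l : Filter α} {m : ℕ}
    {c : α → Fin m → D} (b : Fin m → D) (hc : ∀ i, Tendsto (fun x => c x i) l (𝓝 0)) :
    ∀ᶠ x in l, ps Ψ m (1 + vecMulVec (c x) b) = Ψ (1 + b ⬝ᵥ c x) := by
  refine ps_rank1_ev hΨ m c (fun _ => b) (fun i u hu => ?_)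
    (fun i j => by simpa using (hc j).const_mul (b i))
  have h1 : Tendsto (fun x => c x i * u x) l (𝓝 0) := by simpa using (hc i).mul hu
  exact ev_comm hi (b i) h1

/-- the column fixed, the row small -/
theorem ps_rank1_row (hΨ : Germ Ψ) (hi : GInv Ψ) {α : Type*} {l : Filter α} {m : ℕ}
    (c : Fin m → D) {b : α → Fin m → D} (hb : ∀ i, Tendsto (fun x => b x i) l (𝓝 0)) :
    ∀ᶠ x in l, ps Ψ m (1 + vecMulVec c (b x)) = Ψ (1 + b x ⬝ᵥ c) := by
  refine ps_rank1_ev hΨ m (fun _ => c) b (fun i u hu => ?_)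
    (fun i j => by simpa using (hb i).mul_const (c j))
  -- `c i` fixed, `u → 1`, `b i → 0`
  by_cases hc0 : c i = 0
  · refine Filter.Eventually.of_forall fun x => ?_
    simp [hc0]
  · -- `1 + c u b = 1 + c (u b)`, conjugate by `c`, then swap `u b` and `c`... with `u` near `1`
    have h1 : Tendsto (fun x => u x * b x i) l (𝓝 0) := by simpa using hu.mul (hb i)
    have h2 := ev_comm hi (c i) h1
    -- `Ψ (1 + (u b) c) = Ψ (1 + c (u b))`
    have h3 : Tendsto (fun x => 1 + u x * b x i * c i) l (𝓝 1) := by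
      simpa using (h1.mul_const (c i)).const_add 1
    have h4 := tendsto_inv_one hu
    have h5 : Tendsto (fun x => (u x)⁻¹ * (1 + u x * b x i * c i)) l (𝓝 1) := by
      simpa using h4.mul h3
    filter_upwards [h2, hΨ.comp h5 hu, hΨ.comp h4 h3, Germ.inv hΨ hu, ev_ne hu] with
      x a1 a2 a3 a4 a5
    have e1 : 1 + b x i * (c i * u x) = (u x)⁻¹ * (1 + u x * b x i * c i) * u x := by
      have : (u x)⁻¹ * (1 + u x * b x i * c i) * u x
          = (u x)⁻¹ * u x + (u x)⁻¹ * u x * b x i * c i * u x := by noncomm_ring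
      rw [this, inv_mul_cancel₀ a5, one_mul]
      noncomm_ring
    rw [e1, a2, a3, a4, a1, mul_assoc]
    abel

/-- **the pivot sum of a germ of homomorphism is a germ of homomorphism** -/
theorem ps_mul_ev (hΨ : Germ Ψ) {α : Type*} {l : Filter α} :
    ∀ (m : ℕ) (X Y : α → Matrix (Fin m) (Fin m) D), Tendsto X l (𝓝 1) → Tendsto Y l (𝓝 1) →
    ∀ᶠ x in l, ps Ψ m (X x * Y x) = ps Ψ m (X x) + ps Ψ m (Y x)
  | 0, X, Y, _, _ => Filter.Eventually.of_forall fun x => by simp [ps_zero]
  | m + 1, X, Y, hX, hY => by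
    have he : ∀ {S : α → Matrix (Fin (m + 1)) (Fin (m + 1)) D}, Tendsto S l (𝓝 1) →
        ∀ i j, Tendsto (fun x => S x i j) l
        (𝓝 ((1 : Matrix (Fin (m + 1)) (Fin (m + 1)) D) i j)) := fun hS i j =>
      (tendsto_pi_nhds.mp ((tendsto_pi_nhds.mp hS) i)) j
    have hX0 : Tendsto (fun x => X x 0 0) l (𝓝 1) := by
      have := he hX 0 0
      rwa [Matrix.one_apply_eq] at this
    have hY0 : Tendsto (fun x => Y x 0 0) l (𝓝 1) := by
      have := he hY 0 0
      rwa [Matrix.one_apply_eq] at this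
    have hβ : ∀ j : Fin m, Tendsto (fun x => (X x 0 0)⁻¹ * X x 0 j.succ) l (𝓝 0) := fun j => by
      have := he hX 0 j.succ
      rw [Matrix.one_apply_ne (Fin.succ_ne_zero j).symm] at this
      simpa using (tendsto_inv_one hX0).mul this
    have hγ : ∀ i : Fin m, Tendsto (fun x => Y x i.succ 0 * (Y x 0 0)⁻¹) l (𝓝 0) := fun i => by
      have := he hY i.succ 0
      rw [Matrix.one_apply_ne (Fin.succ_ne_zero i)] at this
      simpa using this.mul (tendsto_inv_one hY0)
    set β : α → Fin m → D := fun x j => (X x 0 0)⁻¹ * X x 0 j.succ with hβd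
    set γ : α → Fin m → D := fun x i => Y x i.succ 0 * (Y x 0 0)⁻¹ with hγd
    have ht : Tendsto (fun x => 1 + β x ⬝ᵥ γ x) l (𝓝 1) := by
      have h1 := tendsto_finsetSum (Finset.univ : Finset (Fin m))
        (fun (i : Fin m) _ => (hβ i).mul (hγ i))
      simp only [zero_mul, Finset.sum_const_zero] at h1
      have h2 := h1.const_add 1
      rw [add_zero] at h2
      exact h2
    have hti := tendsto_inv_one ht
    have hγ' : ∀ i : Fin m, Tendsto (fun x => γ x i * -(1 + β x ⬝ᵥ γ x)⁻¹) l (𝓝 0) := fun i => by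
      simpa using (hγ i).mul hti.neg
    have hR := ps_rank1_small hΨ (c := fun x i => γ x i * -(1 + β x ⬝ᵥ γ x)⁻¹) (b := β) hγ' hβ
    have hRt : Tendsto (fun x => 1 + vecMulVec (fun i => γ x i * -(1 + β x ⬝ᵥ γ x)⁻¹) (β x)) l
        (𝓝 1) := by
      have h1 : Tendsto (fun x => vecMulVec (fun i => γ x i * -(1 + β x ⬝ᵥ γ x)⁻¹) (β x)) l
          (𝓝 0) := tendsto_pi_nhds.mpr fun i => tendsto_pi_nhds.mpr fun j => by
        simpa [vecMulVec_apply] using (hγ' i).mul (hβ j)
      simpa using h1.const_add 1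
    have hS := tendsto_sch hX
    have hS' := tendsto_sch hY
    have hSR := hS.mul hRt
    rw [mul_one] at hSR
    have i1 := ps_mul_ev hΨ m _ _ hSR hS'
    have i2 := ps_mul_ev hΨ m _ _ hS hRt
    have hXt := hX0.mul ht
    rw [mul_one] at hXt
    filter_upwards [ev_ne hX0, ev_ne hY0, ev_ne ht, hR, i1, i2, hΨ.comp hXt hY0,
      hΨ.comp hX0 ht, Germ.inv hΨ ht] with x a1 a2 a3 a4 a5 a6 a7 a8 a9
    obtain ⟨e1, e2⟩ := sch_mul (X x) (Y x) a1 a2 a3
    rw [ps_succ, ps_succ, ps_succ, e1]
    have e3 : sch (X x * Y x) = sch (X x) * (1 + vecMulVec (fun i => γ x i * -(1 + β x ⬝ᵥ γ x)⁻¹)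
        (β x)) * sch (Y x) := e2
    rw [e3, a5, a6, a4, dot_neg_inv (β x) (γ x) a3, a9]
    have e4 : Ψ (X x 0 0 * (1 + (fun j : Fin m => (X x 0 0)⁻¹ * X x 0 j.succ) ⬝ᵥ
      (fun i : Fin m => Y x i.succ 0 * (Y x 0 0)⁻¹)) * Y x 0 0)
        = Ψ (X x 0 0) + Ψ (1 + β x ⬝ᵥ γ x) + Ψ (Y x 0 0) := by
      rw [← a8]; exact a7
    rw [e4]
    abel

theorem germ_ps (hΨ : Germ Ψ) (m : ℕ) : Germ (ps Ψ m) :=
  ps_mul_ev hΨ m (fun p : Matrix (Fin m) (Fin m) D × Matrix (Fin m) (Fin m) D => p.1)
    (fun p => p.2) (continuous_fst.tendsto _) (continuous_snd.tendsto _)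

/-- **corners** -/
theorem ps_corner_ev (hΨ : Germ Ψ) (hi : GInv Ψ) {N : ℕ} {α : Type*} {l : Filter α} :
    ∀ (m : ℕ) (A : Matrix (Fin N) (Fin m) D) (B : Matrix (Fin m) (Fin N) D), B * A = 1 →
    ∀ (S : α → Matrix (Fin m) (Fin m) D), Tendsto S l (𝓝 1) →
    ∀ᶠ x in l, ps Ψ N (1 + A * (S x - 1) * B) = ps Ψ m (S x)
  | 0, A, B, _, S, _ => by
    refine Filter.Eventually.of_forall fun x => ?_
    have : A * (S x - 1) * B = 0 := by
      ext i j
      rw [Matrix.mul_apply]; simp
    rw [this, add_zero, (germ_ps hΨ N).one, ps_zero]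
  | m + 1, A, B, hBA, S, hS => by
    have he : ∀ i j, Tendsto (fun x => S x i j) l
        (𝓝 ((1 : Matrix (Fin (m + 1)) (Fin (m + 1)) D) i j)) := fun i j =>
      (tendsto_pi_nhds.mp ((tendsto_pi_nhds.mp hS) i)) j
    have h00 : Tendsto (fun x => S x 0 0) l (𝓝 1) := by
      have := he 0 0
      rwa [Matrix.one_apply_eq] at this
    have hi1 := tendsto_inv_one h00
    have hi0 : ∀ i : Fin m, Tendsto (fun x => S x i.succ 0) l (𝓝 0) := fun i => by
      have := he i.succ 0
      rwa [Matrix.one_apply_ne (Fin.succ_ne_zero i)] at this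
    have h0j : ∀ j : Fin m, Tendsto (fun x => S x 0 j.succ) l (𝓝 0) := fun j => by
      have := he 0 j.succ
      rwa [Matrix.one_apply_ne (Fin.succ_ne_zero j).symm] at this
    set e0 : Fin (m + 1) → D := (Fin.cons 1 (fun _ => 0) : Fin (m + 1) → D) with he0
    set c1 : α → Fin (m + 1) → D := fun x =>
      (Fin.cons 0 (fun i : Fin m => S x i.succ 0 * (S x 0 0)⁻¹) : Fin (m + 1) → D) with hc1
    set c2 : α → Fin (m + 1) → D := fun x =>
      (Fin.cons (S x 0 0 - 1) (fun _ => 0) : Fin (m + 1) → D) with hc2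
    set b3 : α → Fin (m + 1) → D := fun x =>
      (Fin.cons 0 (fun j : Fin m => (S x 0 0)⁻¹ * S x 0 j.succ) : Fin (m + 1) → D) with hb3
    have t1 : ∀ i, Tendsto (fun x => c1 x i) l (𝓝 0) := by
      intro i
      refine Fin.cases ?_ (fun i' => ?_) i
      · simpa [hc1] using tendsto_const_nhds
      · have := (hi0 i').mul hi1
        simpa [hc1] using this
    have t2 : ∀ i, Tendsto (fun x => c2 x i) l (𝓝 0) := by
      intro i
      refine Fin.cases ?_ (fun i' => ?_) i
      · have := h00.sub_const 1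
        simpa [hc2] using this
      · simpa [hc2] using tendsto_const_nhds
    have t3 : ∀ i, Tendsto (fun x => b3 x i) l (𝓝 0) := by
      intro i
      refine Fin.cases ?_ (fun i' => ?_) i
      · simpa [hb3] using tendsto_const_nhds
      · have := hi1.mul (h0j i')
        simpa [hb3] using this
    have hmv : ∀ {c : α → Fin (m + 1) → D}, (∀ i, Tendsto (fun x => c x i) l (𝓝 0)) →
        ∀ i, Tendsto (fun x => (A *ᵥ c x) i) l (𝓝 0) := by
      intro c hc i
      have := tendsto_finsetSum (Finset.univ : Finset (Fin (m + 1)))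
        (fun (k : Fin (m + 1)) _ => (hc k).const_mul (A i k))
      simpa [Matrix.mulVec, dotProduct] using this
    have hvm : ∀ {b : α → Fin (m + 1) → D}, (∀ i, Tendsto (fun x => b x i) l (𝓝 0)) →
        ∀ i, Tendsto (fun x => (b x ᵥ* B) i) l (𝓝 0) := by
      intro b hb i
      have := tendsto_finsetSum (Finset.univ : Finset (Fin (m + 1)))
        (fun (k : Fin (m + 1)) _ => (hb k).mul_const (B k i))
      simpa [Matrix.vecMul, dotProduct] using this
    have v1 := ps_rank1_col hΨ hi (e0 ᵥ* B) (hmv t1)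
    have v2 := ps_rank1_col hΨ hi (e0 ᵥ* B) (hmv t2)
    have v3 := ps_rank1_row hΨ hi (A *ᵥ e0) (hvm t3)
    have hBA' : (B.submatrix Fin.succ id) * (A.submatrix id Fin.succ)
        = (1 : Matrix (Fin m) (Fin m) D) := by
      rw [← Matrix.submatrix_mul B A Fin.succ id Fin.succ Function.bijective_id, hBA]
      ext i j
      rw [Matrix.submatrix_apply]
      by_cases hij : i = j
      · subst hij; simp
      · rw [Matrix.one_apply_ne hij,
          Matrix.one_apply_ne (fun e => hij (Fin.succ_injective _ e))]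
    have ih := ps_corner_ev hΨ hi m _ _ hBA' _ (tendsto_sch hS)
    have hr : ∀ {c b : α → Fin (m + 1) → D},
        (Tendsto (fun x => vecMulVec (c x) (b x)) l (𝓝 0)) →
        Tendsto (fun x => 1 + vecMulVec (c x) (b x)) l (𝓝 1) := by
      intro c b hcb
      simpa using hcb.const_add 1
    have r1 : Tendsto (fun x => vecMulVec (c1 x) e0) l (𝓝 0) :=
      tendsto_pi_nhds.mpr fun i => tendsto_pi_nhds.mpr fun j => by
        simpa [vecMulVec_apply] using (t1 i).mul_const (e0 j)
    have r2 : Tendsto (fun x => vecMulVec (c2 x) e0) l (𝓝 0) :=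
      tendsto_pi_nhds.mpr fun i => tendsto_pi_nhds.mpr fun j => by
        simpa [vecMulVec_apply] using (t2 i).mul_const (e0 j)
    have r3 : Tendsto (fun x => vecMulVec e0 (b3 x)) l (𝓝 0) :=
      tendsto_pi_nhds.mpr fun i => tendsto_pi_nhds.mpr fun j => by
        simpa [vecMulVec_apply] using (t3 j).const_mul (e0 i)
    have remb : Tendsto (fun x => emb (sch (S x))) l (𝓝 1) := by
      have hs := tendsto_sch hS
      refine tendsto_pi_nhds.mpr fun i => tendsto_pi_nhds.mpr fun j => ?_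
      rw [← emb_one]
      refine Fin.cases ?_ (fun i' => ?_) i <;> refine Fin.cases ?_ (fun j' => ?_) j
      · simpa using tendsto_const_nhds
      · simpa using tendsto_const_nhds
      · simpa using tendsto_const_nhds
      · simpa using (tendsto_pi_nhds.mp ((tendsto_pi_nhds.mp hs) i')) j'
    have q1 := tendsto_corner A B (hr (c := c1) (b := fun _ => e0) r1)
    have q2 := tendsto_corner A B (hr (c := c2) (b := fun _ => e0) r2)
    have q3 := tendsto_corner A B (hr (c := fun _ => e0) (b := b3) r3)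
    have q4 := tendsto_corner A B remb
    have q43 := q4.mul q3
    rw [mul_one] at q43
    have q243 := q2.mul q43
    rw [mul_one] at q243
    filter_upwards [v1, v2, v3, ih, (germ_ps hΨ N).comp q1 q243, (germ_ps hΨ N).comp q2 q43,
      (germ_ps hΨ N).comp q4 q3, ev_ne h00] with x w1 w2 w3 w4 k1 k2 k3 k0
    have hdot : ∀ p q : Fin (m + 1) → D, (p ᵥ* B) ⬝ᵥ (A *ᵥ q) = p ⬝ᵥ q := by
      intro p q
      rw [← Matrix.dotProduct_mulVec, Matrix.mulVec_mulVec, hBA, Matrix.one_mulVec]
    rw [hdot] at w1 w2 w3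
    have d1 : e0 ⬝ᵥ c1 x = 0 := by
      simp [he0, hc1, dotProduct, Fin.sum_univ_succ]
    have d2 : e0 ⬝ᵥ c2 x = S x 0 0 - 1 := by
      simp [he0, hc2, dotProduct, Fin.sum_univ_succ]
    have d3 : b3 x ⬝ᵥ e0 = 0 := by
      simp [he0, hb3, dotProduct, Fin.sum_univ_succ]
    rw [d1, add_zero, hΨ.one] at w1
    rw [d2, add_sub_cancel] at w2
    rw [d3, add_zero, hΨ.one] at w3
    rw [← corner_rank1] at w1 w2 w3
    rw [← corner_emb] at w4
    have hl := ldu (S x) k0
    rw [ps_succ]
    conv_lhs => rw [hl]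
    rw [corner_mul A B hBA, corner_mul A B hBA, corner_mul A B hBA, k1, k2, k3, w1, w2, w3, w4]
    abel

/-- **germ invariance of the pivot sum** -/
theorem ps_conj_ev (hΨ : Germ Ψ) (hi : GInv Ψ) {m : ℕ} (P P' : Matrix (Fin m) (Fin m) D)
    (hP : P' * P = 1) {α : Type*} {l : Filter α} {S : α → Matrix (Fin m) (Fin m) D}
    (hS : Tendsto S l (𝓝 1)) : ∀ᶠ x in l, ps Ψ m (P * S x * P') = ps Ψ m (S x) := by
  have hP' : P * P' = 1 := mul_eq_one_comm.mp hP
  filter_upwards [ps_corner_ev hΨ hi m P P' hP S hS] with x hx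
  rw [← hx]
  congr 1
  rw [mul_sub, sub_mul, mul_one, hP']
  abel


/-! ### blocks -/

/-- orthogonal corners -/
theorem ps_corners_ev (hΨ : Germ Ψ) (hi : GInv Ψ) {N m : ℕ} {α : Type*} {l : Filter α}
    {ι : Type*} [DecidableEq ι] (A : ι → Matrix (Fin N) (Fin m) D)
    (B : ι → Matrix (Fin m) (Fin N) D) (h1 : ∀ i, B i * A i = 1)
    (h0 : ∀ i j, i ≠ j → B i * A j = 0) (S : α → ι → Matrix (Fin m) (Fin m) D)
    (hS : ∀ i, Tendsto (fun x => S x i) l (𝓝 1)) (s : Finset ι) :
    Tendsto (fun x => 1 + ∑ i ∈ s, A i * (S x i - 1) * B i) l (𝓝 1) ∧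
    ∀ᶠ x in l, ps Ψ N (1 + ∑ i ∈ s, A i * (S x i - 1) * B i) = ∑ i ∈ s, ps Ψ m (S x i) := by
  induction s using Finset.induction_on with
  | empty =>
    refine ⟨by simp [tendsto_const_nhds], Filter.Eventually.of_forall fun x => ?_⟩
    simp [(germ_ps hΨ N).one]
  | insert j s hj ih =>
    obtain ⟨i1, i2⟩ := ih
    have hj1 := tendsto_corner (A j) (B j) (hS j)
    have key : ∀ x, 1 + ∑ i ∈ insert j s, A i * (S x i - 1) * B i
        = (1 + ∑ i ∈ s, A i * (S x i - 1) * B i) * (1 + A j * (S x j - 1) * B j) := by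
      intro x
      rw [Finset.sum_insert hj]
      have hz : (∑ i ∈ s, A i * (S x i - 1) * B i) * (A j * (S x j - 1) * B j) = 0 := by
        rw [Finset.sum_mul]
        refine Finset.sum_eq_zero fun i hi => ?_
        have hij : i ≠ j := fun e => hj (e ▸ hi)
        calc A i * (S x i - 1) * B i * (A j * (S x j - 1) * B j)
            = A i * (S x i - 1) * (B i * A j) * ((S x j - 1) * B j) := by
              simp only [Matrix.mul_assoc]
          _ = 0 := by rw [h0 i j hij]; simp
      rw [add_mul, mul_add, mul_add, hz, one_mul, mul_one, one_mul, add_zero]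
      abel
    have hm := i1.mul hj1
    rw [mul_one] at hm
    refine ⟨hm.congr fun x => (key x).symm, ?_⟩
    filter_upwards [(germ_ps hΨ N).comp i1 hj1, i2,
      ps_corner_ev hΨ hi m (A j) (B j) (h1 j) (fun x => S x j) (hS j)] with x a1 a2 a3
    rw [key, a1, a2, a3, Finset.sum_insert hj]
    abel

/-- **block diagonal matrices** -/
theorem ps_block_ev (hΨ : Germ Ψ) (hi : GInv Ψ) {N m : ℕ} {α : Type*} {l : Filter α}
    {ι : Type*} [Fintype ι] [DecidableEq ι] (e : Fin m × ι ≃ Fin N)
    (S : α → ι → Matrix (Fin m) (Fin m) D) (hS : ∀ i, Tendsto (fun x => S x i) l (𝓝 1)) :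
    ∀ᶠ x in l, ps Ψ N (Matrix.reindex e e (Matrix.blockDiagonal (S x)))
      = ∑ i, ps Ψ m (S x i) := by
  classical
  set A : ι → Matrix (Fin N) (Fin m) D := fun i p j => if e.symm p = (j, i) then 1 else 0 with hA
  set B : ι → Matrix (Fin m) (Fin N) D := fun i j p => if e.symm p = (j, i) then 1 else 0 with hB
  have h1 : ∀ i, B i * A i = 1 := by
    intro i
    ext j j'
    rw [Matrix.mul_apply]
    simp only [hA, hB]
    by_cases hjj : j = j'
    · subst hjj
      rw [Matrix.one_apply_eq, Finset.sum_eq_single (e (j, i))]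
      · simp
      · intro p _ hp
        have : e.symm p ≠ (j, i) := fun h => hp (by rw [← h, Equiv.apply_symm_apply])
        simp [this]
      · simp
    · rw [Matrix.one_apply_ne hjj]
      refine Finset.sum_eq_zero fun p _ => ?_
      by_cases h2 : e.symm p = (j, i)
      · have : ¬ ((j, i) = (j', i)) := fun h => hjj (Prod.ext_iff.mp h).1
        rw [h2]; simp [this]
      · simp [h2]
  have h0 : ∀ i i', i ≠ i' → B i * A i' = 0 := by
    intro i i' hii
    ext j j'
    rw [Matrix.mul_apply]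
    simp only [hA, hB]
    refine Finset.sum_eq_zero fun p _ => ?_
    by_cases h2 : e.symm p = (j, i)
    · have : ¬ ((j, i) = (j', i')) := fun h => hii (Prod.ext_iff.mp h).2
      rw [h2]; simp [this]
    · simp [h2]
  have key : ∀ x, Matrix.reindex e e (Matrix.blockDiagonal (S x))
      = 1 + ∑ i ∈ Finset.univ, A i * (S x i - 1) * B i := by
    intro x
    ext p q
    obtain ⟨⟨j, i⟩, rfl⟩ := e.surjective p
    obtain ⟨⟨j', i'⟩, rfl⟩ := e.surjective q
    have hAB : ∀ k, (A k * (S x k - 1) * B k : Matrix (Fin N) (Fin N) D) (e (j, i)) (e (j', i'))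
        = if k = i ∧ k = i' then (S x k - 1) j j' else 0 := by
      intro k
      rw [Matrix.mul_apply]
      have hAk : ∀ y, (A k * (S x k - 1) : Matrix (Fin N) (Fin m) D) (e (j, i)) y
          = if k = i then (S x k - 1) j y else 0 := by
        intro y
        rw [Matrix.mul_apply]
        simp only [hA, Equiv.symm_apply_apply, Prod.mk.injEq]
        by_cases hki : k = i
        · subst hki
          rw [Finset.sum_eq_single j]
          · simp
          · intro z _ hz; simp [Ne.symm hz]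
          · simp
        · rw [if_neg hki]
          refine Finset.sum_eq_zero fun z _ => ?_
          rw [if_neg (fun h => hki h.2.symm), zero_mul]
      simp only [hAk]
      simp only [hB, Equiv.symm_apply_apply, Prod.mk.injEq]
      by_cases hki : k = i
      · by_cases hki' : k = i'
        · rw [if_pos ⟨hki, hki'⟩, Finset.sum_eq_single j']
          · rw [if_pos hki, if_pos ⟨rfl, hki'.symm⟩, mul_one]
          · intro z _ hz
            have hn : ¬ (j' = z ∧ i' = k) := fun h => hz h.1.symm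
            rw [if_neg hn, mul_zero]
          · simp
        · rw [if_neg (fun h => hki' h.2)]
          refine Finset.sum_eq_zero fun z _ => ?_
          have hn : ¬ (j' = z ∧ i' = k) := fun h => hki' h.2.symm
          rw [if_neg hn, mul_zero]
      · rw [if_neg (fun h => hki h.1)]
        refine Finset.sum_eq_zero fun z _ => ?_
        rw [if_neg hki, zero_mul]
    rw [Matrix.add_apply, Matrix.sum_apply]
    simp only [hAB]
    rw [Matrix.reindex_apply, Matrix.submatrix_apply, Equiv.symm_apply_apply,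
      Equiv.symm_apply_apply, Matrix.blockDiagonal_apply]
    by_cases hii : i = i'
    · subst hii
      rw [if_pos rfl, Finset.sum_eq_single i]
      · rw [if_pos ⟨rfl, rfl⟩, Matrix.sub_apply]
        by_cases hjj : j = j'
        · subst hjj; simp
        · rw [Matrix.one_apply_ne hjj, Matrix.one_apply_ne (fun h => hjj (by
            have := e.injective h
            exact (Prod.ext_iff.mp this).1))]
          simp
      · intro k _ hk; rw [if_neg (fun h => hk h.1)]
      · simp
    · rw [if_neg hii, Matrix.one_apply_ne (fun h => hii (by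
        have := e.injective h
        exact (Prod.ext_iff.mp this).2)), zero_add]
      refine (Finset.sum_eq_zero fun k _ => ?_).symm
      rw [if_neg (fun h => hii (h.1.symm.trans h.2))]
  have h2 := (ps_corners_ev hΨ hi A B h1 h0 S hS Finset.univ).2
  refine h2.mono fun x hx => ?_
  rw [key]; exact hx

/-- reindexing -/
theorem ps_reindex_ev (hΨ : Germ Ψ) (hi : GInv Ψ) {N m : ℕ} {α : Type*} {l : Filter α}
    (e : Fin m ≃ Fin N) (S : α → Matrix (Fin m) (Fin m) D) (hS : Tendsto S l (𝓝 1)) :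
    ∀ᶠ x in l, ps Ψ N (Matrix.reindex e e (S x)) = ps Ψ m (S x) := by
  have h1 := ps_block_ev hΨ hi (ι := Unit) ((Equiv.prodPUnit (Fin m)).trans e)
    (fun x _ => S x) (fun _ => hS)
  refine h1.mono fun x hx => ?_
  rw [Finset.univ_unique, Finset.sum_singleton] at hx
  rw [← hx]
  congr 1

omit [TopologicalSpace D] [IsTopologicalRing D] [ContinuousInv₀ D] [T1Space D] in
theorem ps_scalar (Ψ : D → E) (m : ℕ) (x : D) :
    ps Ψ m (Matrix.diagonal fun _ => x) = m • Ψ x := by
  rw [ps_diagonal]; simp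

/-- **TRANSFER** along any filter on which both matrices tend to `1` -/
theorem transfer_ev (hΨ : Germ Ψ) (hi : GInv Ψ) {m : ℕ} (P P' : Matrix (Fin m) (Fin m) D)
    (hP : P' * P = 1) {α : Type*} {l : Filter α} {S T : α → Matrix (Fin m) (Fin m) D}
    (hS : Tendsto S l (𝓝 1)) (hST : ∀ x, P * S x = T x * P) :
    ∀ᶠ x in l, ps Ψ m (T x) = ps Ψ m (S x) := by
  have hP' : P * P' = 1 := mul_eq_one_comm.mp hP
  filter_upwards [ps_conj_ev hΨ hi P P' hP hS] with x hx
  rw [← hx, hST, mul_assoc, hP', mul_one]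

theorem det_emb {F : Type*} [Field F] {m : ℕ} (S : Matrix (Fin m) (Fin m) F) :
    (emb S).det = S.det := by
  rw [Matrix.det_succ_row_zero, Fin.sum_univ_succ]
  have h0 : ∑ j : Fin m, (-1) ^ (j.succ : ℕ) * emb S 0 j.succ *
      ((emb S).submatrix Fin.succ (Fin.succAbove j.succ)).det = 0 :=
    Finset.sum_eq_zero fun j _ => by rw [emb_zero_succ]; ring
  rw [h0, add_zero]
  have h1 : (emb S).submatrix Fin.succ (Fin.succAbove (0 : Fin (m + 1))) = S := by
    ext i j
    simp [Fin.succAbove_zero]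
  rw [h1]
  simp

theorem det_sch {F : Type*} [Field F] {m : ℕ} (B : Matrix (Fin (m + 1)) (Fin (m + 1)) F)
    (hB : B 0 0 ≠ 0) : B.det = B 0 0 * (sch B).det := by
  have hd : ∀ c b : Fin (m + 1) → F, (1 + vecMulVec c b).det = 1 + b ⬝ᵥ c := by
    intro c b
    rw [Matrix.vecMulVec_eq Unit]
    exact Matrix.det_one_add_replicateCol_mul_replicateRow c b
  conv_lhs => rw [ldu B hB]
  rw [Matrix.det_mul, Matrix.det_mul, Matrix.det_mul, hd, hd, hd, det_emb]
  simp [dotProduct, Fin.sum_univ_succ]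

/-- matrices over a subfield, in germ form -/
theorem ps_det_ev (hΨ : Germ Ψ) {F : Type*} [Field F] (φ : F →+* D) {α : Type*} {l : Filter α} :
    ∀ (m : ℕ) (B : α → Matrix (Fin m) (Fin m) F),
    Tendsto (fun x => (B x).map φ) l (𝓝 1) →
    Tendsto (fun x => φ (B x).det) l (𝓝 1) ∧
    ∀ᶠ x in l, ps Ψ m ((B x).map φ) = Ψ (φ (B x).det)
  | 0, B, _ => by
    refine ⟨by simp [tendsto_const_nhds], Filter.Eventually.of_forall fun x => ?_⟩
    simp [ps_zero, hΨ.one]
  | m + 1, B, hB => by
    have h00 : Tendsto (fun x => φ (B x 0 0)) l (𝓝 1) := by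
      have := (tendsto_pi_nhds.mp ((tendsto_pi_nhds.mp hB) 0)) 0
      rwa [Matrix.one_apply_eq] at this
    have hs : Tendsto (fun x => (sch (B x)).map φ) l (𝓝 1) := by
      refine (tendsto_sch hB).congr fun x => ?_
      exact sch_map φ (B x)
    obtain ⟨i1, i2⟩ := ps_det_ev hΨ φ m _ hs
    have hne : ∀ᶠ x in l, B x 0 0 ≠ 0 := by
      refine (ev_ne h00).mono fun x hx h => hx ?_
      rw [h, map_zero]
    have hm := h00.mul i1
    rw [mul_one] at hm
    refine ⟨hm.congr' ?_, ?_⟩
    · filter_upwards [hne] with x hx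
      rw [det_sch _ hx, map_mul]
    · filter_upwards [hne, i2, hΨ.comp h00 i1] with x a1 a2 a3
      rw [ps_succ, sch_map, a2, det_sch _ a1, map_mul, a3, Matrix.map_apply]

end Vale.Agent.P011.H605.Odd
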